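import Mathlib.Analysis.Matrix.Order
import Mathlib.Analysis.CStarAlgebra.Matrix
import Mathlib.Tactic

/-!
# P093, upper bound: finite matrices

`Dec X P N` : `X = P - N` with `P`, `N` positive semidefinite and `P N = 0`.

* `Dec.hs_le` : the positive part is a contraction for the Hilbert-Schmidt norm;
* `Dec.ls` : an eigenvalue count.
-/

set_option linter.unusedSectionVars false

open Matrix
open scoped ComplexOrder

namespace Vale.Agent.P093Z

variable {ι : Type*} [Fintype ι] [DecidableEq ι]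

/-- `X = P - N` with `P`, `N` positive and orthogonal -/
structure Dec (X P N : Matrix ι ι ℂ) : Prop where
  p : P.PosSemidef
  n : N.PosSemidef
  mul : P * N = 0
  eq : X = P - N

/-- the square of the Hilbert-Schmidt norm -/
noncomputable def hs (X : Matrix ι ι ℂ) : ℝ := ∑ i, ∑ j, ‖X i j‖ ^ 2

omit [DecidableEq ι] in
theorem hs_eq (X : Matrix ι ι ℂ) : hs X = (trace (Xᴴ * X)).re := by
  unfold hs
  rw [Finset.sum_comm]
  simp only [trace, diag_apply, mul_apply, conjTranspose_apply, Complex.re_sum]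
  refine Finset.sum_congr rfl fun j _ => Finset.sum_congr rfl fun i _ => ?_
  rw [Complex.star_def, Complex.conj_mul']
  norm_cast

omit [DecidableEq ι] in
theorem hs_nonneg (X : Matrix ι ι ℂ) : 0 ≤ hs X :=
  Finset.sum_nonneg fun _ _ => Finset.sum_nonneg fun _ _ => by positivity

omit [DecidableEq ι] in
theorem entry_sq_le_hs (X : Matrix ι ι ℂ) (i j : ι) : ‖X i j‖ ^ 2 ≤ hs X := by
  have h1 : ‖X i j‖ ^ 2 ≤ ∑ j, ‖X i j‖ ^ 2 :=
    Finset.single_le_sum (f := fun j => ‖X i j‖ ^ 2) (fun _ _ => by positivity) (Finset.mem_univ j)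
  exact h1.trans (Finset.single_le_sum (f := fun i => ∑ j, ‖X i j‖ ^ 2)
    (fun _ _ => Finset.sum_nonneg fun _ _ => by positivity) (Finset.mem_univ i))

open scoped MatrixOrder Matrix.Norms.L2Operator in
theorem psd_fac {A : Matrix ι ι ℂ} (hA : A.PosSemidef) : ∃ B : Matrix ι ι ℂ, A = Bᴴ * B :=
  CStarAlgebra.nonneg_iff_eq_star_mul_self.mp hA.nonneg

theorem trace_mul_nonneg {P N : Matrix ι ι ℂ} (hP : P.PosSemidef) (hN : N.PosSemidef) :
    0 ≤ (trace (P * N)).re := by
  obtain ⟨B, rfl⟩ := psd_fac hP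
  rw [Matrix.mul_assoc, trace_mul_comm, Matrix.mul_assoc, ← Matrix.mul_assoc]
  exact (Complex.nonneg_iff.1 (hN.mul_mul_conjTranspose_same B).trace_nonneg).1

theorem Dec.herm {X P N : Matrix ι ι ℂ} (h : Dec X P N) : X.IsHermitian := by
  rw [h.eq]
  exact h.p.1.sub h.n.1

theorem Dec.mul' {X P N : Matrix ι ι ℂ} (h : Dec X P N) : N * P = 0 := by
  have := congrArg conjTranspose h.mul
  rwa [conjTranspose_mul, h.p.1.eq, h.n.1.eq, conjTranspose_zero] at this

theorem Dec.hs_le {X P N X' P' N' : Matrix ι ι ℂ} (h : Dec X P N) (h' : Dec X' P' N') :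
    hs (P - P') ≤ hs (X - X') := by
  have e1 : X - X' = (P - P') - (N - N') := by rw [h.eq, h'.eq]; abel
  have hP : (P - P')ᴴ = P - P' := (h.p.1.sub h'.p.1).eq
  have hN : (N - N')ᴴ = N - N' := (h.n.1.sub h'.n.1).eq
  have e2 : (X - X')ᴴ * (X - X') = (P - P')ᴴ * (P - P') + (N - N')ᴴ * (N - N') +
      (P * N' + P' * N + N * P' + N' * P) := by
    rw [e1, conjTranspose_sub, hP, hN]
    have a1 := h.mul
    have a2 := h.mul'
    have a3 := h'.mul
    have a4 := h'.mul'
    simp only [Matrix.sub_mul, Matrix.mul_sub, a1, a2, a3, a4]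
    abel
  have b1 := trace_mul_nonneg h.p h'.n
  have b2 := trace_mul_nonneg h'.p h.n
  have b3 := trace_mul_nonneg h.n h'.p
  have b4 := trace_mul_nonneg h'.n h.p
  have b5 := hs_nonneg (N - N')
  rw [hs_eq (X - X'), e2]
  simp only [trace_add, Complex.add_re]
  rw [← hs_eq, ← hs_eq]
  linarith

theorem Dec.unique {X P N P' N' : Matrix ι ι ℂ} (h : Dec X P N) (h' : Dec X P' N') : P = P' := by
  have h1 := h.hs_le h'
  have h2 : hs (X - X) = 0 := by simp [hs]
  ext i j
  have h3 := entry_sq_le_hs (P - P') i j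
  have h4 : ‖(P - P') i j‖ ^ 2 = 0 := le_antisymm (by linarith) (by positivity)
  have h5 : (P - P') i j = 0 := by simpa using h4
  exact sub_eq_zero.1 h5

theorem Dec.neg_eq_zero {X P N : Matrix ι ι ℂ} (h : Dec X P N) (hX : X.PosSemidef) : N = 0 := by
  have h1 : Dec X X 0 := ⟨hX, PosSemidef.zero, Matrix.mul_zero _, (sub_zero _).symm⟩
  have h2 := h.unique h1
  have h3 := h.eq
  rw [h2] at h3
  exact sub_eq_self.1 h3.symm

theorem Dec.card_le_rank {X P N : Matrix ι ι ℂ} (h : Dec X P N) :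
    (Finset.univ.filter fun i => 0 < h.herm.eigenvalues i).card ≤ P.rank := by
  classical
  set hX := h.herm
  set U : Matrix ι ι ℂ := (hX.eigenvectorUnitary : Matrix ι ι ℂ) with hU
  have hU1 : Uᴴ * U = 1 := Unitary.coe_star_mul_self hX.eigenvectorUnitary
  have hU2 : U * Uᴴ = 1 := Unitary.coe_mul_star_self hX.eigenvectorUnitary
  let lp : ι → ℂ := fun i => ((max (hX.eigenvalues i) 0 : ℝ) : ℂ)
  let ln : ι → ℂ := fun i => ((max (-hX.eigenvalues i) 0 : ℝ) : ℂ)
  have hd : Dec X (U * diagonal lp * Uᴴ) (U * diagonal ln * Uᴴ) := by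
    refine ⟨?_, ?_, ?_, ?_⟩
    · refine PosSemidef.mul_mul_conjTranspose_same (PosSemidef.diagonal fun i => ?_) U
      exact Complex.zero_le_real.2 (le_max_right _ _)
    · refine PosSemidef.mul_mul_conjTranspose_same (PosSemidef.diagonal fun i => ?_) U
      exact Complex.zero_le_real.2 (le_max_right _ _)
    · have e1 : diagonal lp * diagonal ln = 0 := by
        rw [diagonal_mul_diagonal, ← diagonal_zero]
        congr 1
        funext i
        simp only [lp, ln]
        rcases le_total (hX.eigenvalues i) 0 with hl | hl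
        · rw [max_eq_right hl]; simp
        · rw [max_eq_right (neg_nonpos.2 hl)]; simp
      calc U * diagonal lp * Uᴴ * (U * diagonal ln * Uᴴ)
          = U * (diagonal lp * (Uᴴ * U) * diagonal ln) * Uᴴ := by simp only [Matrix.mul_assoc]
        _ = 0 := by rw [hU1, Matrix.mul_one, e1]; simp
    · rw [← Matrix.sub_mul, ← Matrix.mul_sub, diagonal_sub]
      have e1 : (fun i => lp i - ln i) = RCLike.ofReal ∘ hX.eigenvalues := by
        funext i
        simp only [lp, ln, Function.comp_apply]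
        rw [← Complex.ofReal_sub]
        congr 1
        rcases le_total (hX.eigenvalues i) 0 with hl | hl
        · rw [max_eq_right hl, max_eq_left (neg_nonneg.2 hl)]; simp
        · rw [max_eq_left hl, max_eq_right (neg_nonpos.2 hl)]; simp
      rw [e1]
      have e2 := hX.spectral_theorem
      rw [Unitary.conjStarAlgAut_apply] at e2
      exact e2
  rw [h.unique hd]
  have d1 : IsUnit U.det := isUnit_det_of_left_inverse hU1
  have d2 : IsUnit (Uᴴ).det := isUnit_det_of_left_inverse hU2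
  rw [rank_mul_eq_left_of_isUnit_det _ _ d2, rank_mul_eq_right_of_isUnit_det _ _ d1, rank_diagonal,
    Fintype.card_subtype]
  refine Finset.card_le_card fun i hi => ?_
  rw [Finset.mem_filter] at hi ⊢
  refine ⟨hi.1, ?_⟩
  simp only [lp, max_eq_left hi.2.le]
  exact_mod_cast hi.2.ne'

theorem trace_eq_sum_eig {X : Matrix ι ι ℂ} (hX : X.IsHermitian) (G : Matrix ι ι ℂ) :
    trace G = ∑ i, star (⇑(hX.eigenvectorBasis i) : ι → ℂ) ⬝ᵥ G *ᵥ ⇑(hX.eigenvectorBasis i) := by
  set U : Matrix ι ι ℂ := (hX.eigenvectorUnitary : Matrix ι ι ℂ) with hU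
  have hU2 : U * Uᴴ = 1 := Unitary.coe_mul_star_self hX.eigenvectorUnitary
  have e1 : trace G = trace (Uᴴ * G * U) := by
    rw [trace_mul_cycle, hU2, Matrix.one_mul]
  rw [e1]
  simp only [trace, diag_apply]
  refine Finset.sum_congr rfl fun i _ => ?_
  rw [Matrix.mul_assoc, mul_apply]
  rfl

/-- the eigenvalue count -/
theorem Dec.ls {X P N : Matrix ι ι ℂ} (h : Dec X P N) {G D : Matrix ι ι ℂ} {σ : ℝ} (hσ : 0 ≤ σ)
    (hG : (1 - G).PosSemidef) (hD : D.PosSemidef)
    (hv : ∀ (l : ℝ) (v : ι → ℂ), l ≤ 0 → X *ᵥ v = (l : ℂ) • v →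
      σ * (star v ⬝ᵥ G *ᵥ v).re ≤ (star v ⬝ᵥ D *ᵥ v).re) :
    σ * (trace G).re ≤ σ * P.rank + (trace D).re := by
  classical
  set hX := h.herm
  have hc : ((Finset.univ.filter fun i => 0 < hX.eigenvalues i).card : ℝ) ≤ P.rank := by
    exact_mod_cast h.card_le_rank
  rw [trace_eq_sum_eig hX G, trace_eq_sum_eig hX D, Complex.re_sum, Complex.re_sum,
    Finset.mul_sum]
  have h1 : ∀ i, σ * (star (⇑(hX.eigenvectorBasis i) : ι → ℂ) ⬝ᵥ G *ᵥ
      ⇑(hX.eigenvectorBasis i)).re ≤ (if 0 < hX.eigenvalues i then σ else 0) +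
      (star (⇑(hX.eigenvectorBasis i) : ι → ℂ) ⬝ᵥ D *ᵥ ⇑(hX.eigenvectorBasis i)).re := by
    intro i
    set v : ι → ℂ := ⇑(hX.eigenvectorBasis i) with hv'
    split_ifs with hl
    · have a1 := (Complex.nonneg_iff.1 (hD.dotProduct_mulVec_nonneg v)).1
      have a2 := (Complex.nonneg_iff.1 (hG.dotProduct_mulVec_nonneg v)).1
      have a3 : star v ⬝ᵥ v = 1 := by
        have := hX.eigenvectorBasis.orthonormal.1 i
        rw [dotProduct_comm, hv', ← EuclideanSpace.inner_eq_star_dotProduct,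
          inner_self_eq_norm_sq_to_K, this]
        simp
      rw [sub_mulVec, one_mulVec, dotProduct_sub, a3, Complex.sub_re, Complex.one_re] at a2
      nlinarith
    · rw [zero_add]
      refine hv _ v (not_lt.1 hl) ?_
      rw [hv', hX.mulVec_eigenvectorBasis i]
      funext k
      simp
  refine (Finset.sum_le_sum fun i _ => h1 i).trans ?_
  rw [Finset.sum_add_distrib, ← Finset.sum_filter, Finset.sum_const, nsmul_eq_mul]
  nlinarith

end Vale.Agent.P093Z
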