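import Vale.Agent.P093Z.Brk
import Vale.Agent.P093Z.Mat
import Mathlib.Analysis.CStarAlgebra.ContinuousFunctionalCalculus.Range

/-!
# P093, upper bound: blocks of matrices over the crossed product

`Sys.blk x r c` : the compression of the matrix `c` to the orbit segment `x, ..., h^(r-1) x`.
-/

set_option linter.unusedSectionVars false
set_option backward.isDefEq.respectTransparency false

open Set Filter Topology Vale.Agent.P093 Matrix
open scoped ComplexOrder

namespace Vale.Agent.P093Z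

theorem exists_lower_mat {ι Z : Type*} [Fintype ι] [DecidableEq ι] [TopologicalSpace Z]
    {K : Set Z} (hK : IsCompact K) (M : Z → Matrix ι ι ℂ) (hM : Continuous M)
    (hp : ∀ z ∈ K, (M z).PosSemidef) (hi : ∀ z ∈ K, ∀ ξ, M z *ᵥ ξ = 0 → ξ = 0) :
    ∃ η : ℝ, 0 < η ∧ ∀ z ∈ K, (M z - (η : ℂ) • 1).PosSemidef := by
  have hn : ∀ ξ : ι → ℂ, star ξ ⬝ᵥ ξ = ((∑ i, ‖ξ i‖ ^ 2 : ℝ) : ℂ) := by
    intro ξ
    push_cast
    refine Finset.sum_congr rfl fun i _ => ?_
    rw [Pi.star_apply, Complex.star_def, Complex.conj_mul']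
  let S : Set (ι → ℂ) := {ξ | ∑ i, ‖ξ i‖ ^ 2 = 1}
  have hS : IsCompact S := by
    refine (isCompact_closedBall (0 : ι → ℂ) 1).of_isClosed_subset
      (isClosed_eq (by fun_prop) continuous_const) fun ξ hξ => ?_
    rw [mem_closedBall_zero_iff, pi_norm_le_iff_of_nonneg zero_le_one]
    intro i
    have h1 : ‖ξ i‖ ^ 2 ≤ ∑ i, ‖ξ i‖ ^ 2 :=
      Finset.single_le_sum (f := fun i => ‖ξ i‖ ^ 2) (fun _ _ => by positivity) (Finset.mem_univ i)
    rw [show ∑ i, ‖ξ i‖ ^ 2 = 1 from hξ] at h1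
    nlinarith [norm_nonneg (ξ i)]
  have hq : Continuous fun p : Z × (ι → ℂ) => (star p.2 ⬝ᵥ M p.1 *ᵥ p.2).re := by
    refine Complex.continuous_re.comp (Continuous.dotProduct (by fun_prop) ?_)
    exact Continuous.matrix_mulVec (hM.comp continuous_fst) continuous_snd
  obtain ⟨η, hη, h1⟩ := (hK.prod hS).exists_forall_le' (a := (0 : ℝ)) hq.continuousOn (by
    rintro ⟨z, ξ⟩ ⟨hz, hξ⟩
    have a1 := (hp z hz).dotProduct_mulVec_nonneg ξ
    refine lt_of_le_of_ne (Complex.nonneg_iff.1 a1).1 fun h0 => ?_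
    have a2 : star ξ ⬝ᵥ M z *ᵥ ξ = 0 := Complex.ext h0.symm (Complex.nonneg_iff.1 a1).2.symm
    have a3 := hi z hz ξ (((hp z hz).dotProduct_mulVec_zero_iff ξ).1 a2)
    have a4 : ∑ i, ‖ξ i‖ ^ 2 = 1 := hξ
    simp [a3] at a4)
  refine ⟨η, hη, fun z hz => PosSemidef.of_dotProduct_mulVec_nonneg ?_ fun ξ => ?_⟩
  · refine (hp z hz).1.sub ?_
    rw [IsHermitian, conjTranspose_smul, conjTranspose_one, Complex.star_def, Complex.conj_ofReal]
  · have a1 := (hp z hz).dotProduct_mulVec_nonneg ξ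
    rw [sub_mulVec, smul_mulVec, one_mulVec, dotProduct_sub, dotProduct_smul, hn, smul_eq_mul,
      ← Complex.ofReal_mul, sub_nonneg]
    refine Complex.le_def.2 ⟨?_, by rw [Complex.ofReal_im]; exact (Complex.nonneg_iff.1 a1).2⟩
    rw [Complex.ofReal_re]
    set t : ℝ := ∑ i, ‖ξ i‖ ^ 2 with ht
    have ht0 : 0 ≤ t := Finset.sum_nonneg fun _ _ => by positivity
    rcases ht0.eq_or_lt with h0 | h0
    · rw [← h0, mul_zero]
      exact (Complex.nonneg_iff.1 a1).1
    · have hs : 0 < √t := Real.sqrt_pos.2 h0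
      have a2 := h1 (z, (((√t)⁻¹ : ℝ) : ℂ) • ξ) ⟨hz, by
        change ∑ i, ‖(((√t)⁻¹ : ℝ) : ℂ) * ξ i‖ ^ 2 = 1
        simp only [norm_mul, mul_pow, Complex.norm_real, Real.norm_eq_abs, sq_abs]
        rw [← Finset.mul_sum, ← ht, inv_pow, Real.sq_sqrt ht0, inv_mul_cancel₀ h0.ne']⟩
      simp only [star_smul, mulVec_smul, smul_dotProduct, dotProduct_smul, smul_eq_mul,
        Complex.star_def, Complex.conj_ofReal, Complex.re_ofReal_mul] at a2
      have a3 : (√t)⁻¹ * ((√t)⁻¹ * (star ξ ⬝ᵥ M z *ᵥ ξ).re) = (star ξ ⬝ᵥ M z *ᵥ ξ).re / t := by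
        rw [← mul_assoc, ← mul_inv, Real.mul_self_sqrt ht0, div_eq_inv_mul]
      rw [a3, le_div_iff₀ h0] at a2
      exact a2

variable {X : Type*} [TopologicalSpace X] [CompactSpace X] {h : X ≃ₜ X} {A : Type*}
  [CStarAlgebra A] [PartialOrder A] [StarOrderedRing A] {ι κ μ : Type*} [Fintype ι] [Fintype κ]
  [Fintype μ] [DecidableEq ι] [DecidableEq κ] [DecidableEq μ]

variable (ι) in
/-- matrices with entries in a star subalgebra -/
def matAlg (S : StarSubalgebra ℂ A) : StarSubalgebra ℂ (CStarMatrix ι ι A) where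
  carrier := {c | ∀ i j, c i j ∈ S}
  mul_mem' := fun {c d} hc hd i j => by
    rw [CStarMatrix.mul_apply]
    exact sum_mem fun k _ => mul_mem (hc i k) (hd k j)
  add_mem' := fun {c d} hc hd i j => add_mem (hc i j) (hd i j)
  algebraMap_mem' := fun a i j => by
    rw [CStarMatrix.algebraMap_apply]
    split_ifs
    · exact S.algebraMap_mem a
    · exact zero_mem _
  star_mem' := fun {c} hc i j => star_mem (hc j i)

theorem isClosed_matAlg {S : StarSubalgebra ℂ A} (hS : IsClosed (S : Set A)) :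
    IsClosed (matAlg ι S : Set (CStarMatrix ι ι A)) := by
  change IsClosed {c : CStarMatrix ι ι A | ∀ i j, c i j ∈ S}
  simp only [ofPred_forall]
  exact isClosed_iInter fun i => isClosed_iInter fun j =>
    hS.preimage (continuous_apply_apply i j)

theorem real_mem_matAlg (S : StarSubalgebra ℂ A) (t : ℝ) :
    algebraMap ℝ (CStarMatrix ι ι A) t ∈ matAlg ι S := by
  rw [IsScalarTower.algebraMap_apply ℝ ℂ]
  exact (matAlg ι S).algebraMap_mem _

namespace Sys

variable (s : Sys h A)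

/-- the compression to an orbit segment -/
noncomputable def blk (x : X) (r : ℕ) :
    CStarMatrix ι κ A →ₗ[ℂ] Matrix (ι × Fin r) (κ × Fin r) ℂ where
  toFun c := Matrix.of fun p q => s.ker x (p.2 : ℕ) (q.2 : ℕ) (c p.1 q.1)
  map_add' c d := by
    ext p q
    simp
  map_smul' a c := by
    ext p q
    simp

theorem blk_apply (x : X) (r : ℕ) (c : CStarMatrix ι κ A) (p : ι × Fin r) (q : κ × Fin r) :
    s.blk x r c p q = s.ker x (p.2 : ℕ) (q.2 : ℕ) (c p.1 q.1) := rfl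

theorem blk_conjTranspose (x : X) (r : ℕ) (c : CStarMatrix ι κ A) :
    s.blk x r c.conjTranspose = (s.blk x r c)ᴴ := by
  ext p q
  rw [conjTranspose_apply, blk_apply, blk_apply, ← ker_star]
  rfl

theorem blk_star (x : X) (r : ℕ) (c : CStarMatrix ι ι A) :
    s.blk x r (star c) = (s.blk x r c)ᴴ := s.blk_conjTranspose x r c

theorem blk_one (x : X) (r : ℕ) : s.blk x r (1 : CStarMatrix ι ι A) = 1 := by
  ext ⟨i, m⟩ ⟨j, n⟩
  rw [blk_apply, CStarMatrix.one_apply, Matrix.one_apply]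
  by_cases hij : i = j
  · rw [if_pos hij, ker_one]
    refine if_congr ?_ rfl rfl
    simp [hij, Fin.ext_iff]
  · rw [if_neg hij, map_zero, if_neg fun he => hij (congrArg Prod.fst he)]

theorem blk_real (x : X) (r : ℕ) (t : ℝ) :
    s.blk x r (algebraMap ℝ (CStarMatrix ι ι A) t) = (t : ℂ) • 1 := by
  rw [IsScalarTower.algebraMap_apply ℝ ℂ, Algebra.algebraMap_eq_smul_one, map_smul, blk_one]
  rfl

theorem blk_real_smul (x : X) (r : ℕ) (t : ℝ) (c : CStarMatrix ι κ A) :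
    s.blk x r (t • c) = (t : ℂ) • s.blk x r c := by
  rw [← map_smul]
  rfl

theorem continuous_blk (r : ℕ) (c : CStarMatrix ι κ A) : Continuous fun x => s.blk x r c :=
  continuous_matrix fun _ _ => s.continuous_ker _ _ _

theorem trace_blk (x : X) (r : ℕ) (c : CStarMatrix ι ι A) :
    trace (s.blk x r c) = ∑ i, ∑ m : Fin r, s.ker x (m : ℕ) (m : ℕ) (c i i) := by
  rw [trace, Fintype.sum_prod_type]
  rfl

theorem blk_posSemidef (x : X) (r : ℕ) {c : CStarMatrix ι ι A} (hc : 0 ≤ c) :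
    (s.blk x r c).PosSemidef := by
  obtain ⟨y, rfl⟩ := CStarAlgebra.nonneg_iff_eq_star_mul_self.1 hc
  refine PosSemidef.of_dotProduct_mulVec_nonneg ?_ fun v => ?_
  · rw [IsHermitian, ← blk_star, star_mul, star_star]
  · have e1 : star v ⬝ᵥ s.blk x r (star y * y) *ᵥ v =
        ∑ k, inner ℂ (∑ q : ι × Fin r, v q • s.vec x (q.2 : ℕ) (y k q.1))
          (∑ q : ι × Fin r, v q • s.vec x (q.2 : ℕ) (y k q.1)) := by
      simp only [sum_inner, inner_sum, inner_smul_left, inner_smul_right, inner_vec]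
      simp only [dotProduct, mulVec, blk_apply, CStarMatrix.mul_apply, map_sum, Finset.mul_sum,
        Finset.sum_mul]
      conv_rhs => rw [Finset.sum_comm]
      conv_rhs => enter [2, q]; rw [Finset.sum_comm]
      conv_rhs => rw [Finset.sum_comm]
      refine Finset.sum_congr rfl fun p _ => Finset.sum_congr rfl fun q _ =>
        Finset.sum_congr rfl fun k _ => ?_
      rw [CStarMatrix.star_apply, Pi.star_apply, Complex.star_def]
      ring
    rw [e1]
    exact Finset.sum_nonneg fun k _ => by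
      rw [inner_self_eq_norm_sq_to_K]
      exact pow_nonneg (RCLike.ofReal_nonneg.2 (norm_nonneg _)) 2

theorem blk_quad_mono (x : X) (r : ℕ) {c d : CStarMatrix ι ι A} (hcd : c ≤ d) (v : ι × Fin r → ℂ) :
    (star v ⬝ᵥ s.blk x r c *ᵥ v).re ≤ (star v ⬝ᵥ s.blk x r d *ᵥ v).re := by
  have h1 := (Complex.nonneg_iff.1
    ((s.blk_posSemidef x r (sub_nonneg.2 hcd)).dotProduct_mulVec_nonneg v)).1
  rw [map_sub, sub_mulVec, dotProduct_sub, Complex.sub_re] at h1
  linarith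

variable {s} {Y : Set X}

theorem blk_mul {r : ℕ} {x : X} (hx : Win h Y r x) (c : CStarMatrix ι κ A) {d : CStarMatrix κ μ A}
    (hd : ∀ i j, d i j ∈ s.brk Y) : s.blk x r (c * d) = s.blk x r c * s.blk x r d := by
  ext p q
  rw [blk_apply, CStarMatrix.mul_apply, map_sum, Matrix.mul_apply, Fintype.sum_prod_type]
  exact Finset.sum_congr rfl fun k _ => (inv_of_mem (hd k q.1)).ker_mul hx _ _ _

theorem posPart_mem {c : CStarMatrix ι ι A} (hc : c ∈ matAlg ι (s.brk Y)) :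
    c⁺ ∈ matAlg ι (s.brk Y) := by
  have := isClosed_matAlg (ι := ι) (isClosed_brk (s := s) (Y := Y))
  exact cfcₙ_mem (𝕜' := ℂ) _ hc

theorem negPart_mem {c : CStarMatrix ι ι A} (hc : c ∈ matAlg ι (s.brk Y)) :
    c⁻ ∈ matAlg ι (s.brk Y) := by
  have := isClosed_matAlg (ι := ι) (isClosed_brk (s := s) (Y := Y))
  exact cfcₙ_mem (𝕜' := ℂ) _ hc

theorem dec_blk {r : ℕ} {x : X} (hx : Win h Y r x) {c : CStarMatrix ι ι A} (hs : IsSelfAdjoint c)
    (hc : c ∈ matAlg ι (s.brk Y)) : Dec (s.blk x r c) (s.blk x r c⁺) (s.blk x r c⁻) := by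
  refine ⟨s.blk_posSemidef x r (CFC.posPart_nonneg c), s.blk_posSemidef x r (CFC.negPart_nonneg c),
    ?_, ?_⟩
  · rw [← blk_mul hx _ (negPart_mem hc)]
    rw [CFC.posPart_mul_negPart, map_zero]
  · rw [← map_sub, CFC.posPart_sub_negPart c hs]

theorem nonneg_of_blk {R : ℕ} (hR : Ret h Y R) {c : CStarMatrix ι ι A} (hs : IsSelfAdjoint c)
    (hc : c ∈ matAlg ι (s.brk Y)) (hp : ∀ r x, FR h Y r x → (s.blk x r c).PosSemidef) :
    0 ≤ c := by
  rw [← CFC.negPart_eq_zero_iff c hs]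
  ext i j
  refine eq_zero_of_ker hR (negPart_mem hc i j) fun r x hx m n => ?_
  have h1 := (dec_blk hx.1 hs hc).neg_eq_zero (hp r x hx)
  exact congrFun (congrFun h1 (i, m)) (j, n)

theorem inj_of_FR {c : CStarMatrix ι ι A} (hc : c ∈ matAlg ι (s.brk Y))
    (hi : ∀ r x, FR h Y r x → ∀ ξ, s.blk x r c *ᵥ ξ = 0 → ξ = 0) (r : ℕ) :
    ∀ x, Win h Y r x → ∀ ξ, s.blk x r c *ᵥ ξ = 0 → ξ = 0 := by
  induction r using Nat.strong_induction_on with
  | _ r ih =>
  intro x hx ξ hξ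
  by_cases hF : FR h Y r x
  · exact hi r x hF ξ hξ
  rcases Nat.eq_zero_or_pos r with h0 | h0
  · subst h0
    funext p
    exact p.2.elim0
  have h1 : ∃ j : ℕ, 0 < j ∧ j < r ∧ (h ^ (j : ℤ)) x ∈ Y := by
    by_contra hn
    push Not at hn
    exact hF ⟨hx, h0, hn⟩
  obtain ⟨j, hj0, hj, hY⟩ := h1
  obtain ⟨r', rfl⟩ : ∃ r', r = j + r' := ⟨r - j, by omega⟩
  have w1 : Win h Y j x := ⟨hx.1, hY⟩
  have w2 : Win h Y r' ((h ^ (j : ℤ)) x) := ⟨hY, by
    rw [zpow_app, add_comm, ← Nat.cast_add]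
    exact hx.2⟩
  have hrow : ∀ (i : ι) (m : Fin (j + r')),
      ∑ k, ((∑ n : Fin j, s.ker x (m : ℕ) (n : ℕ) (c i k) * ξ (k, Fin.castAdd r' n)) +
        ∑ n : Fin r', s.ker ((h ^ (j : ℤ)) x) ((m : ℕ) - j) (n : ℕ) (c i k) *
          ξ (k, Fin.natAdd j n)) = 0 := by
    intro i m
    have a1 := congrFun hξ (i, m)
    rw [mulVec, dotProduct, Fintype.sum_prod_type] at a1
    rw [← show _ = (0 : ℂ) from a1]
    refine Finset.sum_congr rfl fun k _ => ?_
    rw [Fin.sum_univ_add]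
    congr 1
    refine Finset.sum_congr rfl fun n _ => ?_
    rw [ker_shift, blk_apply, sub_add_cancel, Fin.val_natAdd, Nat.cast_add, add_comm (j : ℤ)]
  have e1 := ih j hj x w1 (fun p => ξ (p.1, Fin.castAdd r' p.2)) (by
    funext p
    rw [mulVec, dotProduct, Fintype.sum_prod_type, Pi.zero_apply,
      ← hrow p.1 (Fin.castAdd r' p.2)]
    refine Finset.sum_congr rfl fun k _ => ?_
    rw [Finset.sum_eq_zero (s := Finset.univ) (f := fun n : Fin r' => _ * ξ (k, Fin.natAdd j n)),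
      add_zero]
    · rfl
    · intro n _
      rw [(inv_of_mem (hc p.1 k)).ker_eq_zero w2 (Or.inl ?_) n, zero_mul]
      have := p.2.2
      rw [Fin.val_castAdd]
      omega)
  have e2 := ih r' (by omega) _ w2 (fun p => ξ (p.1, Fin.natAdd j p.2)) (by
    funext p
    rw [mulVec, dotProduct, Fintype.sum_prod_type, Pi.zero_apply,
      ← hrow p.1 (Fin.natAdd j p.2)]
    refine Finset.sum_congr rfl fun k _ => ?_
    rw [Finset.sum_eq_zero (s := Finset.univ) (f := fun n : Fin j => _ * ξ (k, Fin.castAdd r' n)),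
      zero_add]
    · refine Finset.sum_congr rfl fun n _ => ?_
      rw [blk_apply, Fin.val_natAdd, Nat.cast_add, add_sub_cancel_left]
    · intro n _
      rw [(inv_of_mem (hc p.1 k)).ker_eq_zero w1 (Or.inr ?_) n, zero_mul]
      rw [Fin.val_natAdd]
      omega)
  funext ⟨k, n⟩
  refine Fin.addCases (fun n => ?_) (fun n => ?_) n
  · exact congrFun e1 (k, n)
  · exact congrFun e2 (k, n)

theorem exists_lower (hY : IsClosed Y) {R : ℕ} (hR : Ret h Y R) {c : CStarMatrix ι ι A}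
    (h0 : 0 ≤ c) (hc : c ∈ matAlg ι (s.brk Y))
    (hi : ∀ r x, FR h Y r x → ∀ ξ, s.blk x r c *ᵥ ξ = 0 → ξ = 0) :
    ∃ η : ℝ, 0 < η ∧ algebraMap ℝ (CStarMatrix ι ι A) η ≤ c := by
  have h1 : ∀ r : ℕ, ∃ η : ℝ, 0 < η ∧ ∀ x ∈ {x | Win h Y r x},
      (s.blk x r c - (η : ℂ) • 1).PosSemidef := fun r =>
    exists_lower_mat (hY.inter (hY.preimage (h ^ (r : ℤ)).continuous)).isCompact _
      (s.continuous_blk r c) (fun x _ => s.blk_posSemidef x r h0) (inj_of_FR hc hi r)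
  choose η hη h1 using h1
  obtain ⟨r₀, -, hr₀⟩ := Finset.exists_min_image (Finset.range (R + 1)) η ⟨0, by simp⟩
  refine ⟨η r₀, hη r₀, sub_nonneg.1 (nonneg_of_blk hR ?_ (sub_mem hc (real_mem_matAlg _ _))
    fun r x hx => ?_)⟩
  · exact (IsSelfAdjoint.of_nonneg h0).sub (IsSelfAdjoint.algebraMap _ (IsSelfAdjoint.all _))
  · rw [map_sub, blk_real]
    have a1 := hr₀ r (Finset.mem_range.2 (Nat.lt_succ_of_le (hx.le hR)))
    have a2 : s.blk x r c - (η r₀ : ℂ) • 1 =
        (s.blk x r c - (η r : ℂ) • 1) + ((η r - η r₀ : ℝ) : ℂ) • 1 := by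
      rw [Complex.ofReal_sub, sub_smul]
      abel
    rw [a2]
    exact (h1 r x hx.1).add (PosSemidef.one.smul (Complex.zero_le_real.2 (sub_nonneg.2 a1)))

/-- the eigenvalue count for the blocks -/
theorem ls {r : ℕ} {x : X} (hx : Win h Y r x) {y y₀ g : CStarMatrix ι ι A} (hy : IsSelfAdjoint y)
    (hy₀ : IsSelfAdjoint y₀) (hm : y₀ ∈ matAlg ι (s.brk Y)) {σ : ℝ} (hσ : 0 ≤ σ) (hg : g ≤ 1)
    (hl : ∀ l : ℝ, l ≤ 0 → σ • g ≤ (y - algebraMap ℝ _ l) * (y - algebraMap ℝ _ l)) :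
    σ * (trace (s.blk x r g)).re ≤
      σ * (s.blk x r y₀⁺).rank + (trace (s.blk x r (star (y - y₀) * (y - y₀)))).re := by
  refine (dec_blk hx hy₀ hm).ls hσ ?_ (s.blk_posSemidef x r (star_mul_self_nonneg _)) ?_
  · rw [← s.blk_one x r, ← map_sub]
    exact s.blk_posSemidef x r (sub_nonneg.2 hg)
  intro l v hl0 hv
  have a1 := s.blk_quad_mono x r (hl l hl0) v
  rw [blk_real_smul, smul_mulVec, dotProduct_smul, smul_eq_mul, Complex.re_ofReal_mul] at a1
  refine a1.trans (le_of_eq ?_)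
  congr 1
  set d := y - y₀ with hd
  set z := y₀ - algebraMap ℝ (CStarMatrix ι ι A) l with hz
  have hzm : z ∈ matAlg ι (s.brk Y) := sub_mem hm (real_mem_matAlg _ _)
  have hds : star d = d := (hy.sub hy₀).star_eq
  have hzs : star z = z :=
    (hy₀.sub (IsSelfAdjoint.algebraMap _ (IsSelfAdjoint.all _))).star_eq
  have b1 : s.blk x r z *ᵥ v = 0 := by
    rw [hz, map_sub, blk_real, sub_mulVec, hv, smul_mulVec, one_mulVec, sub_self]
  have b2 : ∀ c : CStarMatrix ι ι A, s.blk x r (c * z) *ᵥ v = 0 := by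
    intro c
    have := blk_mul hx c hzm
    rw [show s.blk x r (c * z) = _ from this, ← mulVec_mulVec, b1, mulVec_zero]
  have b3 : star v ⬝ᵥ s.blk x r (z * d) *ᵥ v = 0 := by
    have e1 : z * d = star (d * z) := by rw [star_mul, hds, hzs]
    rw [e1, blk_star, dotProduct_mulVec, ← star_mulVec, b2]
    simp
  have e2 : (y - algebraMap ℝ _ l) * (y - algebraMap ℝ _ l) =
      star d * d + z * d + (d + z) * z := by
    have e3 : y - algebraMap ℝ _ l = d + z := by rw [hd, hz]; abel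
    rw [e3, hds]
    noncomm_ring
  rw [e2, map_add, map_add, add_mulVec, add_mulVec, b2, add_zero, dotProduct_add, b3, add_zero]

end Sys

end Vale.Agent.P093Z
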