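import Vale.Agent.P093Z.Sys

/-!
# P093, upper bound: the orbit breaking subalgebra

`Sys.Inv Y c` : `c` respects the decomposition of the orbits by the visits to `Y`.
`Sys.brk Y` : the closed star subalgebra; `Sys.eq_zero_of_ker` : if the return times to `Y` are
bounded, its elements are determined by their coefficients in the first return blocks.
-/

set_option linter.unusedSectionVars false

open Set Filter Topology Vale.Agent.P093

namespace Vale.Agent.P093Z

variable {X : Type*} [TopologicalSpace X] [CompactSpace X] {h : X ≃ₜ X} {A : Type*}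
  [CStarAlgebra A]

/-- `x` and `h^r x` are in `Y` -/
def Win (h : X ≃ₜ X) (Y : Set X) (r : ℕ) (x : X) : Prop := x ∈ Y ∧ (h ^ (r : ℤ)) x ∈ Y

/-- `x ∈ Y` has first return time `r` -/
def FR (h : X ≃ₜ X) (Y : Set X) (r : ℕ) (x : X) : Prop :=
  Win h Y r x ∧ 0 < r ∧ ∀ j : ℕ, 0 < j → j < r → (h ^ (j : ℤ)) x ∉ Y

/-- the return times to `Y` are bounded -/
def Ret (h : X ≃ₜ X) (Y : Set X) (R : ℕ) : Prop := ∀ z, ∃ i : ℕ, i < R ∧ (h ^ (-(i : ℤ))) z ∈ Y

theorem FR.le {Y : Set X} {R r : ℕ} {x : X} (hR : Ret h Y R) (hx : FR h Y r x) : r ≤ R := by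
  obtain ⟨i, hi, hY⟩ := hR ((h ^ (R : ℤ)) x)
  rw [zpow_app] at hY
  by_contra hlt
  have e1 : -(i : ℤ) + R = ((R - i : ℕ) : ℤ) := by omega
  rw [e1] at hY
  exact hx.2.2 (R - i) (by omega) (by omega) hY

theorem exists_FR {Y : Set X} {R : ℕ} (hR : Ret h Y R) (z : X) :
    ∃ (x : X) (r j : ℕ), FR h Y r x ∧ j < r ∧ z = (h ^ (j : ℤ)) x := by
  classical
  have h1 : ∃ i : ℕ, (h ^ (-(i : ℤ))) z ∈ Y := (hR z).imp fun _ hi => hi.2
  have h2 : ∃ i : ℕ, (h ^ ((i : ℤ) + 1)) z ∈ Y := by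
    obtain ⟨i, hi, hY⟩ := hR ((h ^ (R : ℤ)) z)
    rw [zpow_app] at hY
    refine ⟨R - i - 1, ?_⟩
    have e1 : ((R - i - 1 : ℕ) : ℤ) + 1 = -(i : ℤ) + R := by omega
    rwa [e1]
  refine ⟨(h ^ (-(Nat.find h1 : ℤ))) z, Nat.find h1 + Nat.find h2 + 1, Nat.find h1,
    ⟨⟨Nat.find_spec h1, ?_⟩, by omega, fun j hj0 hj => ?_⟩, by omega, ?_⟩
  · rw [zpow_app]
    have e1 : ((Nat.find h1 + Nat.find h2 + 1 : ℕ) : ℤ) + -(Nat.find h1 : ℤ) =
      (Nat.find h2 : ℤ) + 1 := by omega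
    rw [e1]
    exact Nat.find_spec h2
  · rw [zpow_app]
    by_cases hle : j ≤ Nat.find h1
    · have e1 : (j : ℤ) + -(Nat.find h1 : ℤ) = -((Nat.find h1 - j : ℕ) : ℤ) := by omega
      rw [e1]
      exact Nat.find_min h1 (by omega)
    · have e1 : (j : ℤ) + -(Nat.find h1 : ℤ) = ((j - Nat.find h1 - 1 : ℕ) : ℤ) + 1 := by omega
      rw [e1]
      exact Nat.find_min h2 (by omega)
  · rw [zpow_app]
    simp

namespace Sys

variable (s : Sys h A)

/-- the windows between two visits to `Y` are invariant under `c` -/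
def Inv (Y : Set X) (c : A) : Prop :=
  ∀ r x, Win h Y r x → ∀ n : Fin r,
    s.vec x (n : ℕ) c = ∑ m : Fin r, s.ker x (m : ℕ) (n : ℕ) c • (dvec (m : ℕ) x : Ell2 X)

variable {s} {Y : Set X}

theorem Inv.ker_mul {d : A} (hd : s.Inv Y d) {r : ℕ} {x : X} (hx : Win h Y r x) (c : A) (l : ℤ)
    (n : Fin r) : s.ker x l (n : ℕ) (c * d) =
      ∑ m : Fin r, s.ker x l (m : ℕ) c * s.ker x (m : ℕ) (n : ℕ) d := by
  rw [ker_apply, vec_mul, hd r x hx n, map_sum, inner_sum]
  refine Finset.sum_congr rfl fun m _ => ?_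
  rw [map_smul, inner_smul_right, mul_comm]
  rfl

theorem Inv.ker_eq_zero {d : A} (hd : s.Inv Y d) {r : ℕ} {x : X} (hx : Win h Y r x) {l : ℤ}
    (hl : l < 0 ∨ r ≤ l) (n : Fin r) : s.ker x l (n : ℕ) d = 0 := by
  have h1 := hd.ker_mul hx 1 l n
  rw [one_mul] at h1
  rw [h1]
  refine Finset.sum_eq_zero fun m _ => ?_
  rw [ker_one, if_neg (by have := m.2; omega), zero_mul]

theorem Inv.mul {c d : A} (hc : s.Inv Y c) (hd : s.Inv Y d) : s.Inv Y (c * d) := by
  intro r x hx n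
  simp only [hd.ker_mul hx, Finset.sum_smul]
  rw [vec_mul, hd r x hx n, map_sum, Finset.sum_comm]
  refine Finset.sum_congr rfl fun m _ => ?_
  rw [map_smul, ← vec_apply, hc r x hx m, Finset.smul_sum]
  refine Finset.sum_congr rfl fun l _ => ?_
  rw [smul_smul, mul_comm]

theorem Inv.add {c d : A} (hc : s.Inv Y c) (hd : s.Inv Y d) : s.Inv Y (c + d) := by
  intro r x hx n
  simp only [map_add, add_smul, Finset.sum_add_distrib]
  rw [hc r x hx n, hd r x hx n]

theorem Inv.smul {c : A} (a : ℂ) (hc : s.Inv Y c) : s.Inv Y (a • c) := by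
  intro r x hx n
  simp only [map_smul, smul_eq_mul, mul_smul]
  rw [hc r x hx n, Finset.smul_sum]

theorem isClosed_inv : IsClosed {c | s.Inv Y c} := by
  simp only [Inv, ofPred_forall]
  refine isClosed_iInter fun r => isClosed_iInter fun x => isClosed_iInter fun _ =>
    isClosed_iInter fun n => isClosed_eq (s.vec _ _).continuous ?_
  exact continuous_finsetSum _ fun m _ => (s.ker _ _ _).continuous.smul continuous_const

theorem inv_mon (f : C(X, ℂ)) (k : ℤ)
    (hf : ∀ r x, Win h Y r x → ∀ n : ℕ, n < r → (n + k < 0 ∨ r ≤ n + k) →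
      f ((h ^ (n + k)) x) = 0) : s.Inv Y (s.mon f k) := by
  intro r x hx n
  rw [vec_mon]
  simp only [ker_mon]
  by_cases hk : (n : ℕ) + k < 0 ∨ r ≤ (n : ℕ) + k
  · rw [hf r x hx n n.2 hk, zero_smul]
    refine (Finset.sum_eq_zero fun m _ => ?_).symm
    rw [if_neg (by have := m.2; omega), zero_smul]
  · let m₀ : Fin r := ⟨((n : ℕ) + k).toNat, by omega⟩
    have hm : ((m₀ : ℕ) : ℤ) = (n : ℕ) + k := by simp only [m₀]; omega
    rw [Finset.sum_eq_single m₀, if_pos hm, hm]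
    · intro m _ hne
      rw [if_neg, zero_smul]
      intro he
      exact hne (Fin.ext (by omega))
    · simp

theorem inv_pi (f : C(X, ℂ)) : s.Inv Y (s.π f) := by
  rw [← mon_zero]
  exact inv_mon f 0 fun r x _ n hn hk => by omega

variable (s Y) in
/-- the algebraic orbit breaking subalgebra -/
def brk₀ : StarSubalgebra ℂ A where
  carrier := {c | c ∈ monSpan s.π s.U ∧ s.Inv Y c ∧ s.Inv Y (star c)}
  mul_mem' := fun {c d} hc hd => ⟨monSpan_mul s.cov hc.1 hd.1, hc.2.1.mul hd.2.1, by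
    rw [star_mul]; exact hd.2.2.mul hc.2.2⟩
  add_mem' := fun {c d} hc hd => ⟨Submodule.add_mem _ hc.1 hd.1, hc.2.1.add hd.2.1, by
    rw [star_add]; exact hc.2.2.add hd.2.2⟩
  algebraMap_mem' := fun a => by
    rw [← AlgHomClass.commutes s.π a]
    refine ⟨?_, inv_pi _, ?_⟩
    · rw [← mon_zero]
      exact mon_mem _ _
    · rw [← map_star]
      exact inv_pi _
  star_mem' := fun {c} hc => ⟨monSpan_star s.cov s.starU hc.1, hc.2.2, by
    rw [star_star]; exact hc.2.1⟩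

variable (s Y) in
/-- the orbit breaking subalgebra -/
noncomputable def brk : StarSubalgebra ℂ A := (s.brk₀ Y).topologicalClosure

theorem isClosed_brk : IsClosed (s.brk Y : Set A) := StarSubalgebra.isClosed_topologicalClosure _

theorem mem_brk_closure {c : A} (hc : c ∈ s.brk Y) : c ∈ closure (s.brk₀ Y : Set A) := by
  have h2 : c ∈ (s.brk Y : Set A) := hc
  unfold brk at h2
  rwa [StarSubalgebra.topologicalClosure_coe] at h2

theorem inv_of_mem {c : A} (hc : c ∈ s.brk Y) : s.Inv Y c :=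
  closure_minimal (fun _ hd => hd.2.1) isClosed_inv (mem_brk_closure hc)

theorem pi_mem (f : C(X, ℂ)) : s.π f ∈ s.brk Y := by
  refine StarSubalgebra.le_topologicalClosure _ ⟨?_, inv_pi _, ?_⟩
  · rw [← mon_zero]
    exact mon_mem _ _
  · rw [← map_star]
    exact inv_pi _

theorem shift_mem (f : C(X, ℂ)) (hf : ∀ y ∈ Y, f y = 0) : s.mon f 1 ∈ s.brk Y := by
  refine StarSubalgebra.le_topologicalClosure _ ⟨mon_mem _ _, inv_mon _ _ ?_, ?_⟩
  · intro r x hx n hn hk
    have e1 : (n : ℤ) + 1 = r := by omega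
    rw [e1]
    exact hf _ hx.2
  · rw [star_mon]
    refine inv_mon _ _ fun r x hx n hn hk => ?_
    have e1 : (1 : ℤ) + ((n : ℤ) + -1) = 0 := by omega
    rw [powComp_apply, zpow_app, e1]
    simp [hf _ hx.1]

theorem norm_le_of_ker {R : ℕ} (hR : Ret h Y R) {c : A} (hc : c ∈ s.brk₀ Y) {β : ℝ} (hβ : 0 ≤ β)
    (hk : ∀ r x, FR h Y r x → ∀ m n : Fin r, ‖s.ker x (m : ℕ) (n : ℕ) c‖ ≤ β) :
    ‖c‖ ≤ (2 * R + 1) * β := by
  classical
  obtain ⟨f, hf⟩ := s.exists_sum hc.1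
  have key : ∀ k ∈ f.support, ‖f k‖ ≤ if k ∈ Finset.Icc (-(R : ℤ)) R then β else 0 := by
    intro k hk'
    refine (ContinuousMap.norm_le _ (by split_ifs <;> simp [hβ])).2 fun z => ?_
    obtain ⟨x, r, j, hx, hj, hz⟩ := exists_FR hR ((h ^ (-k)) z)
    have e1 : z = (h ^ (k + j)) x := by
      rw [← zpow_app, ← hz, zpow_app]
      simp
    have e2 : s.ker x (k + j) j c = f k z := by
      rw [hf, ker_sum_mon, add_sub_cancel_right, if_pos hk', e1]
    rw [← e2]
    by_cases hin : k + j < 0 ∨ r ≤ k + j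
    · have := hc.2.1.ker_eq_zero hx.1 hin ⟨j, hj⟩
      rw [show s.ker x (k + j) j c = 0 from this, norm_zero]
      split_ifs <;> simp [hβ]
    · have hr := hx.le hR
      rw [if_pos (Finset.mem_Icc.2 ⟨by omega, by omega⟩)]
      have := hk r x hx ⟨(k + j).toNat, by omega⟩ ⟨j, hj⟩
      have e3 : (((k + j).toNat : ℕ) : ℤ) = k + j := by omega
      simpa only [e3] using this
  rw [hf]
  refine (norm_sum_le _ _).trans ((Finset.sum_le_sum fun k hk' =>
    (s.norm_mon_le _ _).trans (key k hk')).trans ?_)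
  rw [← Finset.sum_filter, Finset.sum_const, nsmul_eq_mul]
  refine mul_le_mul_of_nonneg_right ?_ hβ
  have h1 : (f.support.filter fun k => k ∈ Finset.Icc (-(R : ℤ)) R).card ≤
      (Finset.Icc (-(R : ℤ)) R).card :=
    Finset.card_le_card fun k hk => (Finset.mem_filter.1 hk).2
  rw [Int.card_Icc] at h1
  have h2 : (f.support.filter fun k => k ∈ Finset.Icc (-(R : ℤ)) R).card ≤ 2 * R + 1 := by omega
  exact_mod_cast h2

theorem eq_zero_of_ker {R : ℕ} (hR : Ret h Y R) {c : A} (hc : c ∈ s.brk Y)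
    (hk : ∀ r x, FR h Y r x → ∀ m n : Fin r, s.ker x (m : ℕ) (n : ℕ) c = 0) : c = 0 := by
  have hcl : IsClosed {d : A | ‖d‖ ≤ (2 * R + 1) * ‖d - c‖} :=
    isClosed_le continuous_norm (by fun_prop)
  have h1 : c ∈ {d : A | ‖d‖ ≤ (2 * R + 1) * ‖d - c‖} := by
    refine closure_minimal (fun d hd => ?_) hcl (mem_brk_closure hc)
    refine norm_le_of_ker hR hd (norm_nonneg _) fun r x hx m n => ?_
    have := s.norm_ker_le x (m : ℕ) (n : ℕ) (d - c)
    rwa [map_sub, hk r x hx, sub_zero] at this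
  simpa using h1

end Sys

end Vale.Agent.P093Z
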