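import Vale.Agent.P093Z.Brk

/-!
# P093, upper bound: markers, phases and counting

`Mark h` : a cutoff function `ρ` with separated support of `1 - ρ`, and a function `n` with
`n (h z) = ρ (h z) (n z + 1)`. `Mark.Bad` : the points at which a block may start.
-/

set_option linter.unusedSectionVars false

open Set Filter Topology Vale.Agent.P093

namespace Vale.Agent.P093Z

/-- the bump which selects the phases -/
noncomputable def psi (T Q : ℕ) (y : ℝ) : ℝ := max 0 (((T : ℝ) + 1) / 2 - latDist Q y)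

theorem psi_nonneg (T Q : ℕ) (y : ℝ) : 0 ≤ psi T Q y := le_max_left _ _

theorem psi_lip (T Q : ℕ) (y y' : ℝ) : ‖psi T Q y - psi T Q y'‖ ≤ 1 * ‖y - y'‖ := by
  have h1 := (Metric.lipschitz_infDist_pt (Set.range fun k : ℤ => (Q : ℝ) * k)).dist_le_mul y y'
  rw [Real.dist_eq, Real.dist_eq, NNReal.coe_one] at h1
  unfold psi
  rw [max_comm, max_comm 0, Real.norm_eq_abs, Real.norm_eq_abs]
  refine (abs_max_sub_max_le_abs _ _ _).trans ?_
  rw [sub_sub_sub_cancel_left, abs_sub_comm]
  exact h1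

theorem continuous_psi (T Q : ℕ) : Continuous (psi T Q) :=
  continuous_const.max (continuous_const.sub (latDist_continuous Q))

theorem psi_ne_zero {T Q : ℕ} {y : ℝ} (h : psi T Q y ≠ 0) :
    ∃ k : ℤ, |y - Q * k| < ((T : ℝ) + 1) / 2 := by
  rw [← latDist_lt_iff]
  by_contra hle
  exact h (max_eq_left (by linarith [not_lt.1 hle]))

theorem den_ge {T : ℕ} (hT : 0 < T) (M : ℕ) (t : ℝ) :
    1 / 2 ≤ ∑ s ∈ Finset.range (M + 1), psi T (M * T + 1) (T * (t - s)) := by
  have hT' : (1 : ℝ) ≤ T := by exact_mod_cast hT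
  set Q : ℝ := M * T + 1 with hQ
  have hQ0 : 0 < Q := by positivity
  set k : ℤ := ⌊(T * t + T / 2) / Q⌋ with hk
  have k1 : Q * k ≤ T * t + T / 2 := by
    have := Int.floor_le ((T * t + T / 2) / Q)
    rw [le_div_iff₀ hQ0] at this
    linarith
  have k2 : T * t + T / 2 < Q * k + Q := by
    have := Int.lt_floor_add_one ((T * t + T / 2) / Q)
    rw [div_lt_iff₀ hQ0] at this
    linarith
  set v : ℝ := T * t + T / 2 - Q * k with hv
  have v0 : 0 ≤ v / T := div_nonneg (by linarith) (by linarith)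
  set s : ℕ := ⌊v / T⌋₊ with hs
  have s1 : T * s ≤ v := by
    have := Nat.floor_le v0
    rw [le_div_iff₀ (by linarith)] at this
    linarith
  have s2 : v < T * s + T := by
    have := Nat.lt_floor_add_one (v / T)
    rw [div_lt_iff₀ (by linarith)] at this
    linarith
  have s3 : s < M + 1 := by
    have a1 : (T : ℝ) * s < T * (M + 1) := by nlinarith
    have a2 : (s : ℝ) < M + 1 := lt_of_mul_lt_mul_left a1 (by linarith)
    exact_mod_cast a2
  refine le_trans ?_ (Finset.single_le_sum (f := fun s : ℕ => psi T (M * T + 1) (T * (t - s)))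
    (fun _ _ => psi_nonneg _ _ _) (Finset.mem_range.2 s3))
  refine le_max_of_le_right ?_
  have : latDist (M * T + 1) (T * (t - s)) ≤ T / 2 := by
    refine latDist_le k ?_
    push_cast
    rw [abs_le]
    constructor <;> linarith
  linarith

open scoped Classical in
theorem phase_count (T M : ℕ) (c : ℝ) :
    ((Finset.range (M * T + 1)).filter fun i : ℕ =>
      psi T (M * T + 1) (T * (c + i)) ≠ 0).card ≤ T + 1 := by
  set Q : ℕ := M * T + 1 with hQ
  have key : ∀ i ∈ (Finset.range Q).filter fun i : ℕ => psi T Q (T * (c + i)) ≠ 0,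
      ∃ k : ℤ, |T * (c + i) - Q * k| < ((T : ℝ) + 1) / 2 :=
    fun i hi => psi_ne_zero (Finset.mem_filter.1 hi).2
  choose! k hk using key
  set u : ℝ := -(T * c) - ((T : ℝ) + 1) / 2 with hu
  have hcard : (Finset.Icc (⌊u⌋ + 1) (⌊u⌋ + (T + 1))).card = T + 1 := by
    rw [Int.card_Icc]
    omega
  rw [← hcard]
  refine Finset.card_le_card_of_injOn (fun i : ℕ => (T : ℤ) * i - Q * k i) ?_ ?_
  · intro i hi
    have h1 := abs_lt.1 (hk i hi)
    have h3 : u < (((T : ℤ) * i - Q * k i : ℤ) : ℝ) := by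
      push_cast
      linarith [h1.1]
    have h4 : (((T : ℤ) * i - Q * k i : ℤ) : ℝ) < ((⌊u⌋ + 1 + (T + 1) : ℤ) : ℝ) := by
      have := Int.lt_floor_add_one u
      push_cast
      linarith [h1.2]
    simp only [Finset.coe_Icc, Set.mem_Icc]
    have h6 := Int.cast_lt.1 h4
    exact ⟨Int.floor_lt.2 h3, by omega⟩
  · intro i hi i' hi' hii
    have b1 : i < Q := Finset.mem_range.1 (Finset.mem_filter.1 hi).1
    have b2 : i' < Q := Finset.mem_range.1 (Finset.mem_filter.1 hi').1
    simp only at hii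
    have h1 : (Q : ℤ) ∣ (i : ℤ) - i' := by
      refine ⟨(i - i') - M * (k i - k i'), ?_⟩
      have hQ' : (Q : ℤ) = M * T + 1 := by rw [hQ]; push_cast; ring
      linear_combination (-(M : ℤ)) * hii - ((i : ℤ) - i') * hQ'
    have h2 := Int.eq_zero_of_abs_lt_dvd h1 (by rw [abs_lt]; omega)
    omega

theorem card_near (S I : Finset ℤ) (K : ℕ) (h : ∀ i ∈ S, ∃ l ∈ I, |l - i| ≤ K) :
    S.card ≤ (2 * K + 1) * I.card := by
  classical
  have h1 : S ⊆ I.biUnion fun l => Finset.Icc (l - K) (l + K) := by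
    intro i hi
    obtain ⟨l, hl, h2⟩ := h i hi
    rw [abs_le] at h2
    exact Finset.mem_biUnion.2 ⟨l, hl, Finset.mem_Icc.2 ⟨by omega, by omega⟩⟩
  refine (Finset.card_le_card h1).trans (Finset.card_biUnion_le.trans ?_)
  have h2 : ∀ l : ℤ, (Finset.Icc (l - K) (l + K)).card = 2 * K + 1 := fun l => by
    rw [Int.card_Icc]; omega
  simp only [h2, Finset.sum_const, smul_eq_mul]
  rw [mul_comm]

variable {X : Type*} [TopologicalSpace X] [CompactSpace X]

/-- a marker function with its counting function -/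
structure Mark (h : X ≃ₜ X) (L : ℕ) where
  ρ : C(X, ℝ)
  n : C(X, ℝ)
  R : ℕ
  nonneg : ∀ x, 0 ≤ ρ x
  le_one : ∀ x, ρ x ≤ 1
  sep : ∀ x (i j : ℤ), i < j → ρ ((h ^ i) x) ≠ 1 → ρ ((h ^ j) x) ≠ 1 → (L : ℤ) ≤ j - i
  ret : Ret h {x | ρ x = 0} R
  step : ∀ z, n (h z) = ρ (h z) * (n z + 1)

variable {h : X ≃ₜ X}

theorem app_succ (j : ℤ) (x : X) : (h ^ (j + 1)) x = h ((h ^ j) x) := by
  rw [add_comm, ← zpow_app, zpow_one]

theorem exists_mark [T2Space X] [Infinite X] (hmin : IsMinimalHomeo h) (L : ℕ) :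
    Nonempty (Mark h L) := by
  obtain ⟨w, R, hw0, hw1, hsep, hret⟩ := exists_cutoff h hmin L
  let ρ : C(X, ℝ) := 1 - w
  have hρ : ∀ x, ρ x = 1 - w x := fun x => rfl
  let p : ℕ → X → ℝ := fun k z => ∏ i ∈ Finset.range k, ρ ((h ^ (-(i : ℤ))) z)
  have hp : ∀ k, Continuous (p k) := fun k =>
    continuous_finsetProd _ fun i _ => ρ.continuous.comp (h ^ (-(i : ℤ))).continuous
  refine ⟨⟨ρ, ⟨fun z => ∑ k ∈ Finset.range R, p (k + 1) z,
    continuous_finsetSum _ fun k _ => hp _⟩, R, fun x => by rw [hρ]; linarith [hw1 x],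
    fun x => by rw [hρ]; linarith [hw0 x], fun x i j hij h1 h2 => hsep x i j hij ?_ ?_,
    fun z => ?_, fun z => ?_⟩⟩
  · intro h0
    exact h1 (by rw [hρ, h0, sub_zero])
  · intro h0
    exact h2 (by rw [hρ, h0, sub_zero])
  · obtain ⟨i, hi, h1⟩ := hret z
    exact ⟨i, hi, by change ρ _ = 0; rw [hρ, h1, sub_self]⟩
  · change ∑ k ∈ Finset.range R, p (k + 1) (h z) =
      ρ (h z) * (∑ k ∈ Finset.range R, p (k + 1) z + 1)
    have h1 : ∀ k, p (k + 1) (h z) = ρ (h z) * p k z := by
      intro k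
      simp only [p]
      rw [Finset.prod_range_succ', mul_comm]
      congr 1
      refine Finset.prod_congr rfl fun i _ => ?_
      congr 1
      have e0 : h z = (h ^ (1 : ℤ)) z := by rw [zpow_one]
      rw [e0, zpow_app]
      congr 2
      push_cast
      ring
    have h2 : p R z = 0 := by
      obtain ⟨i, hi, h3⟩ := hret z
      exact Finset.prod_eq_zero (Finset.mem_range.2 hi) (by rw [hρ, h3, sub_self])
    have h3 := Finset.sum_range_succ' (fun k => p k z) R
    rw [Finset.sum_range_succ, h2, add_zero] at h3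
    simp only [h1]
    rw [← Finset.mul_sum, h3]
    simp [p]

namespace Mark

variable {L : ℕ} (m : Mark h L)

theorem regular (z : X) (s : ℕ) (hs : ∀ l : ℕ, 0 < l → l ≤ s → m.ρ ((h ^ (l : ℤ)) z) = 1) :
    m.n ((h ^ (s : ℤ)) z) = m.n z + s := by
  induction s with
  | zero => simp
  | succ s ih =>
    have h1 := hs (s + 1) (by omega) le_rfl
    rw [Nat.cast_succ, app_succ] at h1
    rw [Nat.cast_succ, app_succ, m.step, h1, ih fun l h0 hl => hs l h0 (by omega)]
    push_cast
    ring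

theorem le_of_FR {r : ℕ} {x : X} (hx : FR h {x | m.ρ x = 0} r x) : L ≤ r := by
  have h1 : m.ρ x = 0 := hx.1.1
  have h2 : m.ρ ((h ^ (r : ℤ)) x) = 0 := hx.1.2
  have := m.sep x 0 r (by have := hx.2.1; omega) (by simp [h1]) (by rw [h2]; exact zero_ne_one)
  omega

open scoped Classical in
/-- the irregular times -/
noncomputable def irr (x : X) (a b : ℤ) : Finset ℤ :=
  (Finset.Ico a b).filter fun l => m.ρ ((h ^ l) x) ≠ 1

theorem mem_irr {x : X} {a b l : ℤ} : l ∈ m.irr x a b ↔ (a ≤ l ∧ l < b) ∧ m.ρ ((h ^ l) x) ≠ 1 := by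
  simp [irr]

theorem irr_card (hL : 0 < L) (x : X) (a : ℤ) (N : ℕ) : L * (m.irr x a (a + N)).card ≤ N + L := by
  classical
  have h1 := sparse_count hL 0 N (fun i => m.ρ ((h ^ (a + i)) x) ≠ 1) fun i j hij h1 h2 => by
    have := m.sep x _ _ (by omega) h1 h2
    omega
  refine le_trans (Nat.mul_le_mul_left _ ?_) h1
  refine Finset.card_le_card_of_injOn (fun l => (l - a).toNat) (fun l hl => ?_) ?_
  · have h2 := m.mem_irr.1 hl
    have e1 : a + ((l - a).toNat : ℕ) = l := by omega
    simp only [Finset.coe_filter, Finset.mem_Ico, mem_ofPred_eq, e1]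
    exact ⟨⟨by omega, by omega⟩, h2.2⟩
  · intro l hl l' hl' he
    have h2 := m.mem_irr.1 hl
    have h3 := m.mem_irr.1 hl'
    simp only at he
    omega

open scoped Classical in
theorem phase_block (T M : ℕ) (x : X) (a : ℤ) (B : ℕ) :
    ((Finset.Ico a (a + ((M * T + 1) * B : ℕ))).filter fun i =>
      psi T (M * T + 1) (T * m.n ((h ^ i) x)) ≠ 0).card ≤
      (T + 1) * B + (M * T + 1) * (m.irr x a (a + ((M * T + 1) * B : ℕ))).card := by
  set Q : ℕ := M * T + 1 with hQ
  induction B with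
  | zero => simp
  | succ B ih =>
    set b : ℤ := a + (Q * B : ℕ) with hb
    have e1 : a + (Q * (B + 1) : ℕ) = b + Q := by rw [hb]; push_cast; ring
    have hab : a ≤ b := by omega
    have split : ∀ (P : ℤ → Prop) [DecidablePred P], ((Finset.Ico a (b + Q)).filter P).card =
        ((Finset.Ico a b).filter P).card + ((Finset.Ico b (b + Q)).filter P).card := by
      intro P _
      rw [← Finset.Ico_union_Ico_eq_Ico hab (by omega : b ≤ b + Q), Finset.filter_union,
        Finset.card_union_of_disjoint]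
      exact Finset.disjoint_filter_filter (Finset.Ico_disjoint_Ico_consecutive _ _ _)
    have one : ((Finset.Ico b (b + Q)).filter fun i =>
        psi T Q (T * m.n ((h ^ i) x)) ≠ 0).card ≤ (T + 1) + Q * (m.irr x b (b + Q)).card := by
      rcases Nat.eq_zero_or_pos (m.irr x b (b + Q)).card with h0 | h0
      · refine le_trans ?_ (Nat.le_add_right _ _)
        refine le_trans ?_ (phase_count T M (m.n ((h ^ b) x)))
        rw [Finset.card_eq_zero] at h0
        refine Finset.card_le_card_of_injOn (fun l => (l - b).toNat) (fun l hl => ?_) ?_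
        · rw [Finset.mem_coe, Finset.mem_filter, Finset.mem_Ico] at hl
          have a1 := m.regular ((h ^ b) x) (l - b).toNat fun j h1 h2 => by
            by_contra hne
            rw [zpow_app] at hne
            have : (j : ℤ) + b ∈ m.irr x b (b + Q) := m.mem_irr.2 ⟨⟨by omega, by omega⟩, hne⟩
            rw [h0] at this
            simp at this
          have e2 : (((l - b).toNat : ℕ) : ℤ) + b = l := by omega
          rw [zpow_app, e2] at a1
          have e3 : (l - b).toNat < Q := by omega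
          rw [Finset.mem_coe, Finset.mem_filter, Finset.mem_range, ← a1]
          exact ⟨e3, hl.2⟩
        · intro l hl l' hl' he
          rw [Finset.mem_coe, Finset.mem_filter, Finset.mem_Ico] at hl hl'
          simp only at he
          omega
      · calc _ ≤ (Finset.Ico b (b + Q)).card := Finset.card_filter_le _ _
          _ = Q * 1 := by rw [Int.card_Ico]; omega
          _ ≤ Q * _ := Nat.mul_le_mul_left _ h0
          _ ≤ _ := Nat.le_add_left _ _
    have s2 : (m.irr x a (b + Q)).card = (m.irr x a b).card + (m.irr x b (b + Q)).card :=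
      split _
    rw [e1, split, s2]
    nlinarith

/-- the points at which a block may start -/
def Bad (T M : ℕ) (z : X) : Prop :=
  (∃ l : ℕ, 0 < l ∧ l ≤ M ∧ m.ρ ((h ^ (l : ℤ)) z) ≠ 1) ∨ psi T (M * T + 1) (T * m.n z) ≠ 0

theorem bad_of_psi {T M s : ℕ} (hs : s ≤ M) {z : X}
    (hz : psi T (M * T + 1) (T * (m.n ((h ^ (s : ℤ)) z) - s)) ≠ 0) : m.Bad T M z := by
  by_contra hn
  simp only [Bad, not_or, not_exists, not_and, not_not] at hn
  rw [m.regular z s fun l h0 hl => hn.1 l h0 (hl.trans hs), add_sub_cancel_right] at hz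
  exact hz hn.2

open scoped Classical in
theorem bad_card (T M P : ℕ) (hP : M + (M * T + 1) ≤ P) (x : X) (r : ℕ) :
    ((Finset.Ico (-(M : ℤ)) r).filter fun i => m.Bad T M ((h ^ i) x)).card ≤
      (2 * M + 1 + (M * T + 1)) * (m.irr x (-(P : ℤ)) (r + P)).card +
        (T + 1) * ((r + M) / (M * T + 1) + 1) := by
  set Q : ℕ := M * T + 1 with hQ
  set B : ℕ := (r + M) / Q + 1 with hB
  have hQ0 : 0 < Q := by omega
  have b1 : r + M < Q * B := Nat.lt_mul_div_succ _ hQ0
  have b2 : Q * B ≤ r + M + Q := by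
    have := Nat.mul_div_le (r + M) Q
    rw [hB, mul_add, mul_one]
    omega
  have h1 := m.phase_block T M x (-(M : ℤ)) B
  rw [← hQ] at h1
  have h2 : (m.irr x (-(M : ℤ)) (-(M : ℤ) + (Q * B : ℕ))).card ≤
      (m.irr x (-(P : ℤ)) (r + P)).card := Finset.card_le_card fun l hl => by
    have := m.mem_irr.1 hl
    exact m.mem_irr.2 ⟨⟨by omega, by omega⟩, this.2⟩
  have h3 := card_near ((Finset.Ico (-(M : ℤ)) r).filter fun i =>
      ∃ l : ℕ, 0 < l ∧ l ≤ M ∧ m.ρ ((h ^ (l : ℤ)) ((h ^ i) x)) ≠ 1)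
      (m.irr x (-(P : ℤ)) (r + P)) M fun i hi => by
    rw [Finset.mem_filter, Finset.mem_Ico] at hi
    obtain ⟨hi, l, h0, hl, hne⟩ := hi
    rw [zpow_app] at hne
    exact ⟨l + i, m.mem_irr.2 ⟨⟨by omega, by omega⟩, hne⟩, by rw [abs_le]; omega⟩
  have h4 : ((Finset.Ico (-(M : ℤ)) r).filter fun i => m.Bad T M ((h ^ i) x)) ⊆
      ((Finset.Ico (-(M : ℤ)) r).filter fun i =>
        ∃ l : ℕ, 0 < l ∧ l ≤ M ∧ m.ρ ((h ^ (l : ℤ)) ((h ^ i) x)) ≠ 1) ∪
      ((Finset.Ico (-(M : ℤ)) (-(M : ℤ) + (Q * B : ℕ))).filter fun i =>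
        psi T Q (T * m.n ((h ^ i) x)) ≠ 0) := by
    intro i hi
    rw [Finset.mem_filter, Finset.mem_Ico] at hi
    rw [Finset.mem_union, Finset.mem_filter, Finset.mem_filter, Finset.mem_Ico, Finset.mem_Ico]
    rcases hi.2 with h5 | h5
    · exact Or.inl ⟨hi.1, h5⟩
    · exact Or.inr ⟨⟨hi.1.1, by omega⟩, h5⟩
  have h5 := (Finset.card_le_card h4).trans (Finset.card_union_le _ _)
  have h6 := Nat.mul_le_mul_left Q h2
  nlinarith

end Mark

end Vale.Agent.P093Z
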