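import Vale.Agent.P093.Bdl.B2

/-!
# P093, upper bound: from operator inequalities to Cuntz subequivalence
-/

set_option linter.unusedSectionVars false
set_option backward.isDefEq.respectTransparency false

open Set Filter Topology Vale.Agent.P093

namespace Vale.Agent.P093Z

section One

variable {B : Type*} [CStarAlgebra B] [PartialOrder B] [StarOrderedRing B]

theorem exists_approx_of_le {p q : B} (hp : 0 ≤ p) (hq : 0 ≤ q) {t : ℝ} (ht : 0 < t)
    (h : p ≤ q + algebraMap ℝ B t) : ∃ z : B, ‖star z * q * z - p‖ ≤ t := by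
  have hu : IsStrictlyPositive (q + algebraMap ℝ B t) :=
    IsStrictlyPositive.nonneg_add hq (isStrictlyPositive_algebraMap ht)
  set v : B := (q + algebraMap ℝ B t) ^ (-(1 / 2) : ℝ) with hv
  have h1 : v * (q + algebraMap ℝ B t) * v = 1 := CFC.conjugate_rpow_neg_one_half _ hu
  have hvs : IsSelfAdjoint v := IsSelfAdjoint.of_nonneg CFC.rpow_nonneg
  set sp : B := CFC.sqrt p with hsp
  have h2 : sp * sp = p := CFC.sqrt_mul_sqrt_self p hp
  have hss : IsSelfAdjoint sp := IsSelfAdjoint.of_nonneg (CFC.sqrt_nonneg p)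
  have h3 : v * q * v = 1 - t • (v * v) := by
    rw [← h1, Algebra.algebraMap_eq_smul_one, mul_add, add_mul, mul_smul_comm, mul_one,
      smul_mul_assoc, add_sub_cancel_right]
  have h4 : ‖v * p * v‖ ≤ 1 := by
    rw [CStarAlgebra.norm_le_one_iff_of_nonneg _ (hvs.conjugate_nonneg hp), ← h1]
    exact hvs.conjugate_le_conjugate h
  refine ⟨v * sp, ?_⟩
  have h5 : star (v * sp) * q * (v * sp) - p = -(t • (star (v * sp) * (v * sp))) := by
    rw [star_mul, hvs.star_eq, hss.star_eq]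
    calc sp * v * q * (v * sp) - p = sp * (v * q * v) * sp - p := by simp only [mul_assoc]
      _ = _ := by
        rw [h3, mul_sub, sub_mul, mul_one, h2, mul_smul_comm, smul_mul_assoc]
        simp only [mul_assoc]
        abel
  have h6 : (v * sp) * star (v * sp) = v * p * v := by
    rw [star_mul, hvs.star_eq, hss.star_eq, ← h2]
    simp only [mul_assoc]
  rw [h5, norm_neg, norm_smul, Real.norm_eq_abs, abs_of_pos ht, CStarRing.norm_star_mul_self,
    ← CStarRing.norm_self_mul_star, h6]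
  nlinarith

theorem exists_root {p q : B} (hp : 0 ≤ p) (hq : IsSelfAdjoint q) (hpq : p * q = 0) :
    ∃ g : B, IsSelfAdjoint g ∧ g * g = p ∧ g * q = 0 ∧ q * g = 0 := by
  have hss : IsSelfAdjoint (CFC.sqrt p) := IsSelfAdjoint.of_nonneg (CFC.sqrt_nonneg p)
  have h2 := CFC.sqrt_mul_sqrt_self p hp
  have h3 : CFC.sqrt p * q = 0 := by
    rw [← CStarRing.star_mul_self_eq_zero_iff, star_mul, hss.star_eq, hq.star_eq, mul_assoc,
      ← mul_assoc (CFC.sqrt p), h2, hpq, mul_zero]
  refine ⟨_, hss, h2, h3, ?_⟩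
  have := congrArg star h3
  rwa [star_mul, hss.star_eq, hq.star_eq, star_zero] at this

theorem le_cut {a e : B} (ha : 0 ≤ a) (he : IsSelfAdjoint e) :
    a ≤ (2 : ℝ) • (e * a * e + ‖a‖ • ((1 - e) * (1 - e))) := by
  have he' : IsSelfAdjoint (1 - e) := (IsSelfAdjoint.one B).sub he
  have h1 : 0 ≤ (e - (1 - e)) * a * (e - (1 - e)) := (he.sub he').conjugate_nonneg ha
  have h2 := CStarAlgebra.star_left_conjugate_le_norm_smul (a := 1 - e)
    (IsSelfAdjoint.of_nonneg ha)
  rw [he'.star_eq] at h2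
  have h3 : a + (e - (1 - e)) * a * (e - (1 - e)) =
      (e * a * e + (1 - e) * a * (1 - e)) + (e * a * e + (1 - e) * a * (1 - e)) := by noncomm_ring
  calc a ≤ a + (e - (1 - e)) * a * (e - (1 - e)) := le_add_of_nonneg_right h1
    _ ≤ _ := by
      rw [h3, two_smul]
      gcongr

theorem conj_le_add {a c e : B} (hs : IsSelfAdjoint (a - c)) (he : IsSelfAdjoint e) (he1 : ‖e‖ ≤ 1)
    {η : ℝ} (hη : ‖a - c‖ ≤ η) : e * a * e ≤ e * c * e + algebraMap ℝ B η := by
  have h1 : IsSelfAdjoint (e * (a - c) * e) := by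
    rw [IsSelfAdjoint, star_mul, star_mul, he.star_eq, hs.star_eq, mul_assoc]
  have h2 : ‖e * (a - c) * e‖ ≤ η := by
    have a1 := norm_mul_le (e * (a - c)) e
    have a2 := norm_mul_le e (a - c)
    have a3 : ‖e‖ * ‖a - c‖ ≤ η := by nlinarith [norm_nonneg e, norm_nonneg (a - c)]
    nlinarith [norm_nonneg e, norm_nonneg (e * (a - c))]
  have h3 : e * (a - c) * e ≤ algebraMap ℝ B η := by
    refine h1.le_algebraMap_norm_self.trans ?_
    rw [Algebra.algebraMap_eq_smul_one, Algebra.algebraMap_eq_smul_one]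
    exact smul_le_smul_of_nonneg_right h2 zero_le_one
  rw [mul_sub, sub_mul, sub_le_iff_le_add'] at h3
  exact h3

end One

variable {A : Type*} [CStarAlgebra A] [PartialOrder A] [StarOrderedRing A] {ι κ μ ν : Type*}
  [Fintype ι] [Fintype κ] [Fintype μ] [Fintype ν] [DecidableEq ι] [DecidableEq κ]

theorem cmul_assoc (a : CStarMatrix ι κ A) (b : CStarMatrix κ μ A) (c : CStarMatrix μ ν A) :
    a * b * c = a * (b * c) := Matrix.mul_assoc _ _ _

theorem cconj_mul (a : CStarMatrix ι κ A) (b : CStarMatrix κ μ A) :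
    (a * b).conjTranspose = b.conjTranspose * a.conjTranspose := Matrix.conjTranspose_mul _ _

theorem rect_nonneg (y : CStarMatrix κ ι A) : 0 ≤ y.conjTranspose * y := by
  rcases isEmpty_or_nonempty ι with h0 | ⟨⟨i₀⟩⟩
  · refine le_of_eq ?_
    ext i
    exact h0.elim i
  let R : κ → CStarMatrix ι ι A := fun k =>
    CStarMatrix.ofMatrix (Matrix.of fun i j => if i = i₀ then y k j else 0)
  have hR : ∀ k i j, R k i j = if i = i₀ then y k j else 0 := fun _ _ _ => rfl
  have h1 : y.conjTranspose * y = ∑ k, star (R k) * R k := by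
    ext i j
    rw [CStarMatrix.mul_apply]
    have : (∑ k, star (R k) * R k) i j = ∑ k, (star (R k) * R k) i j := Matrix.sum_apply _ _ _ _
    rw [this]
    refine Finset.sum_congr rfl fun k _ => ?_
    rw [CStarMatrix.mul_apply, Finset.sum_eq_single i₀]
    · rw [CStarMatrix.star_apply, hR, hR, if_pos rfl, if_pos rfl]
      rfl
    · intro l _ hl
      rw [hR, if_neg hl, mul_zero]
    · simp
  rw [h1]
  exact Finset.sum_nonneg fun k _ => star_mul_self_nonneg _

theorem rect_conj_nonneg {p : CStarMatrix κ κ A} (hp : 0 ≤ p) (y : CStarMatrix κ ι A) :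
    0 ≤ y.conjTranspose * p * y := by
  obtain ⟨z, rfl⟩ := CStarAlgebra.nonneg_iff_eq_star_mul_self.1 hp
  have h1 := rect_nonneg (z * y)
  rw [cconj_mul, cmul_assoc] at h1
  rw [cmul_assoc, cmul_assoc]
  exact h1

theorem rect_conj_mono {p q : CStarMatrix κ κ A} (hpq : p ≤ q) (y : CStarMatrix κ ι A) :
    y.conjTranspose * p * y ≤ y.conjTranspose * q * y := by
  have h1 := rect_conj_nonneg (sub_nonneg.2 hpq) y
  have h2 : y.conjTranspose * (q - p) * y = y.conjTranspose * q * y - y.conjTranspose * p * y := by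
    have := Matrix.mul_sub (CStarMatrix.ofMatrix.symm y.conjTranspose)
      (CStarMatrix.ofMatrix.symm q) (CStarMatrix.ofMatrix.symm p)
    rw [show y.conjTranspose * (q - p) = y.conjTranspose * q - y.conjTranspose * p from this]
    exact Matrix.sub_mul _ _ _
  rwa [h2, sub_nonneg] at h1

theorem rect_smul (t : ℝ) (ht : 0 ≤ t) (b : CStarMatrix κ κ A) (y : CStarMatrix κ ι A) :
    ∃ y' : CStarMatrix κ ι A, t • (y.conjTranspose * b * y) = y'.conjTranspose * b * y' := by
  refine ⟨√t • y, ?_⟩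
  have h1 : (√t • y).conjTranspose = √t • y.conjTranspose := by
    ext i j
    simp
  rw [h1, CStarMatrix.smul_mul, CStarMatrix.smul_mul, CStarMatrix.mul_smul, smul_smul,
    Real.mul_self_sqrt ht]

theorem negPart_le {x : CStarMatrix ι ι A} {s b e : CStarMatrix κ κ A} {w : CStarMatrix κ ι A}
    (hs : IsSelfAdjoint s) (he : IsSelfAdjoint e) (hsb : s ≤ e * b * e) {η : ℝ} (hη : 0 < η)
    (hlow : algebraMap ℝ (CStarMatrix ι ι A) η ≤
      star x⁺ * x⁺ + (s⁺ * w).conjTranspose * (s⁺ * w)) :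
    ∃ y : CStarMatrix κ ι A, x⁻ ≤ y.conjTranspose * b * y := by
  have hxp : IsSelfAdjoint x⁺ := IsSelfAdjoint.of_nonneg (CFC.posPart_nonneg x)
  have hsp : IsSelfAdjoint s⁺ := IsSelfAdjoint.of_nonneg (CFC.posPart_nonneg s)
  have hsn : IsSelfAdjoint s⁻ := IsSelfAdjoint.of_nonneg (CFC.negPart_nonneg s)
  obtain ⟨g, hg, g1, g2, -⟩ := exists_root (CFC.negPart_nonneg x) hxp (CFC.negPart_mul_posPart x)
  obtain ⟨q, hq, q1, q2, -⟩ := exists_root (CFC.posPart_nonneg s) hsn (CFC.posPart_mul_negPart s)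
  have h1 := hg.conjugate_le_conjugate hlow
  rw [Algebra.algebraMap_eq_smul_one, mul_smul_comm, mul_one, smul_mul_assoc, g1, mul_add, add_mul,
    hxp.star_eq, ← mul_assoc, g2, zero_mul, zero_mul, zero_add] at h1
  have h2 : s⁺ * s⁺ ≤ (q * e) * b * (e * q) := by
    have a1 : s⁺ * s⁺ = q * s * q := by
      conv_rhs => rw [← CFC.posPart_sub_negPart s hs, mul_sub, q2, sub_zero, ← q1]
      rw [← q1]
      simp only [mul_assoc]
    rw [a1]
    refine (hq.conjugate_le_conjugate hsb).trans (le_of_eq ?_)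
    simp only [mul_assoc]
  have h3 := rect_conj_mono h2 (w * g)
  have e1 : g * ((s⁺ * w).conjTranspose * (s⁺ * w)) * g =
      (w * g).conjTranspose * (s⁺ * s⁺) * (w * g) := by
    rw [cconj_mul, cconj_mul, ← CStarMatrix.star_eq_conjTranspose,
      ← CStarMatrix.star_eq_conjTranspose, hg.star_eq, hsp.star_eq]
    simp only [cmul_assoc]
  have e2 : (w * g).conjTranspose * ((q * e) * b * (e * q)) * (w * g) =
      (e * q * (w * g)).conjTranspose * b * (e * q * (w * g)) := by
    rw [cconj_mul (e * q), ← CStarMatrix.star_eq_conjTranspose, star_mul, he.star_eq, hq.star_eq]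
    simp only [cmul_assoc]
  rw [← e1, e2] at h3
  obtain ⟨y, hy⟩ := rect_smul η⁻¹ (inv_nonneg.2 hη.le) b (e * q * (w * g))
  refine ⟨y, ?_⟩
  rw [← hy]
  have h4 := smul_le_smul_of_nonneg_left (h1.trans h3) (inv_nonneg.2 hη.le)
  rwa [smul_smul, inv_mul_cancel₀ hη.ne', one_smul] at h4

theorem cuntz_of_le {n m : ℕ} {a : CStarMatrix (Fin n) (Fin n) A}
    {b : CStarMatrix (Fin m) (Fin m) A} (ha : 0 ≤ a) (hb : 0 ≤ b)
    (h : ∀ ε : ℝ, 0 < ε → ∃ y : CStarMatrix (Fin m) (Fin n) A,
      a ≤ y.conjTranspose * b * y + algebraMap ℝ _ ε) : CuntzLE a b := by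
  have h1 : ∀ k : ℕ, ∃ x : CStarMatrix (Fin m) (Fin n) A,
      ‖x.conjTranspose * b * x - a‖ ≤ 1 / ((k : ℝ) + 1) := by
    intro k
    obtain ⟨y, hy⟩ := h (1 / ((k : ℝ) + 1)) (by positivity)
    obtain ⟨z, hz⟩ := exists_approx_of_le ha (rect_conj_nonneg hb y) (by positivity) hy
    refine ⟨y * z, ?_⟩
    have e1 : (y * z).conjTranspose * b * (y * z) = star z * (y.conjTranspose * b * y) * z := by
      rw [cconj_mul, ← CStarMatrix.star_eq_conjTranspose]
      simp only [cmul_assoc]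
    rw [e1]
    exact hz
  choose x hx using h1
  refine ⟨x, tendsto_iff_norm_sub_tendsto_zero.2 ?_⟩
  exact squeeze_zero (fun _ => norm_nonneg _) hx tendsto_one_div_add_atTop_nhds_zero_nat

variable (ι) in
/-- scalar matrices -/
noncomputable def dg : A →⋆ₐ[ℂ] CStarMatrix ι ι A where
  toFun c := CStarMatrix.ofMatrix (Matrix.diagonal fun _ => c)
  map_one' := rfl
  map_mul' _ _ := (Matrix.diagonal_mul_diagonal _ _).symm
  map_zero' := Matrix.diagonal_zero
  map_add' _ _ := (Matrix.diagonal_add _ _).symm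
  commutes' _ := rfl
  map_star' _ := (Matrix.diagonal_conjTranspose _).symm

theorem dg_apply (c : A) (i j : ι) : dg ι c i j = if i = j then c else 0 := rfl

theorem dg_conj_apply (c : A) (a : CStarMatrix ι ι A) (i j : ι) :
    (dg ι c * a * dg ι c) i j = c * a i j * c :=
  (Matrix.mul_diagonal _ _ _ _).trans (congrArg (· * c) (Matrix.diagonal_mul _ _ _ _))

theorem exists_entry_bound {η : ℝ} (hη : 0 < η) :
    ∃ η' : ℝ, 0 < η' ∧ ∀ c : CStarMatrix ι ι A, (∀ i j, ‖c i j‖ ≤ η') → ‖c‖ ≤ η := by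
  let φ : (ι → ι → A) → CStarMatrix ι ι A := fun c => c
  have hφ : Continuous φ := continuous_id
  have h1 : ∀ᶠ c in 𝓝 (0 : ι → ι → A), ‖φ c‖ < η := by
    have := (continuous_norm.comp hφ).tendsto 0
    refine this.eventually (gt_mem_nhds ?_)
    change ‖(0 : CStarMatrix ι ι A)‖ < η
    rwa [norm_zero]
  obtain ⟨δ, hδ, h2⟩ := Metric.eventually_nhds_iff.1 h1
  refine ⟨δ / 2, by positivity, fun c hc => (h2 (y := fun i j => c i j) ?_).le⟩
  rw [dist_zero_right]
  refine lt_of_le_of_lt ((pi_norm_le_iff_of_nonneg (by positivity : 0 ≤ δ / 2)).2 fun i =>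
    (pi_norm_le_iff_of_nonneg (by positivity)).2 fun j => hc i j) (by linarith)

end Vale.Agent.P093Z
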