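import Vale.Agent.P093Z.Gen
import Vale.Agent.P093Z.Cz

/-!
# P093, upper bound: approximation by band matrices and cutting
-/

set_option linter.unusedSectionVars false
set_option backward.isDefEq.respectTransparency false

open Set Filter Topology Vale.Agent.P093 Matrix

namespace Vale.Agent.P093Z

variable {X : Type*} [TopologicalSpace X] [CompactSpace X] {h : X ≃ₜ X} {A : Type*}
  [CStarAlgebra A] [PartialOrder A] [StarOrderedRing A] {ι : Type*} [Fintype ι] [DecidableEq ι]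

theorem norm_one_le' {B : Type*} [CStarAlgebra B] : ‖(1 : B)‖ ≤ 1 := by
  rcases subsingleton_or_nontrivial B with h4 | h4
  · rw [Subsingleton.elim (1 : B) 0, norm_zero]
    exact zero_le_one
  · exact norm_one.le

namespace Sys

variable (s : Sys h A)

theorem exists_band (c : A) {η : ℝ} (hη : 0 < η) : ∃ (K₀ : ℕ) (f : ℤ → C(X, ℂ)), ∀ K : ℕ, K₀ ≤ K →
    ‖c - ∑ k ∈ Finset.Icc (-(K : ℤ)) K, s.mon (f k) k‖ ≤ η := by
  obtain ⟨d, hd, hcd⟩ := Metric.mem_closure_iff.1 (s.dense c) η hη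
  obtain ⟨f, rfl⟩ := s.exists_sum hd
  refine ⟨f.support.sup Int.natAbs, f, fun K hK => ?_⟩
  rw [← Finset.sum_subset (s₁ := f.support), ← dist_eq_norm]
  · exact hcd.le
  · intro k hk
    have := (Finset.le_sup (f := Int.natAbs) hk).trans hK
    exact Finset.mem_Icc.2 ⟨by omega, by omega⟩
  · intro k _ hk
    simp [mon, Finsupp.notMem_support_iff.1 hk]

/-- a band matrix -/
noncomputable def band (K : ℕ) (g : ι → ι → ℤ → C(X, ℂ)) : CStarMatrix ι ι A :=
  CStarMatrix.ofMatrix (Matrix.of fun i j => ∑ k ∈ Finset.Icc (-(K : ℤ)) K, s.mon (g i j k) k)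

theorem band_apply (K : ℕ) (g : ι → ι → ℤ → C(X, ℂ)) (i j : ι) :
    s.band K g i j = ∑ k ∈ Finset.Icc (-(K : ℤ)) K, s.mon (g i j k) k := rfl

theorem exists_bandMat (c : CStarMatrix ι ι A) {η : ℝ} (hη : 0 < η) :
    ∃ (K₀ : ℕ) (f : ι → ι → ℤ → C(X, ℂ)), ∀ K : ℕ, K₀ ≤ K → ∃ η' : ℝ, 0 < η' ∧
      ∀ g : ι → ι → ℤ → C(X, ℂ), (∀ i j, ∀ k ∈ Finset.Icc (-(K : ℤ)) K, ‖g i j k - f i j k‖ ≤ η') →
        ‖c - s.band K g‖ ≤ η := by
  obtain ⟨η₁, h₁, hb⟩ := exists_entry_bound (A := A) (ι := ι) hη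
  choose K₀ f hf using fun i j => s.exists_band (c i j) (half_pos h₁)
  refine ⟨Finset.univ.sup fun p : ι × ι => K₀ p.1 p.2, f, fun K hK =>
    ⟨η₁ / 2 / (2 * K + 1), by positivity, fun g hg => hb _ fun i j => ?_⟩⟩
  have a1 := hf i j K ((Finset.le_sup (f := fun p : ι × ι => K₀ p.1 p.2)
    (Finset.mem_univ (i, j))).trans hK)
  have a2 : ‖∑ k ∈ Finset.Icc (-(K : ℤ)) K, s.mon (f i j k) k -
      ∑ k ∈ Finset.Icc (-(K : ℤ)) K, s.mon (g i j k) k‖ ≤ η₁ / 2 := by
    rw [← Finset.sum_sub_distrib]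
    refine (norm_sum_le_of_le _ (n := fun _ => η₁ / 2 / (2 * K + 1)) fun k hk => ?_).trans ?_
    · rw [mon, mon, ← sub_mul, ← map_sub]
      refine (s.norm_mon_le _ _).trans ?_
      rw [norm_sub_rev]
      exact hg i j k hk
    · rw [Finset.sum_const, Int.card_Icc, nsmul_eq_mul]
      have : (((K : ℤ) + 1 - -(K : ℤ)).toNat : ℝ) = 2 * K + 1 := by
        have : ((K : ℤ) + 1 - -(K : ℤ)).toNat = 2 * K + 1 := by omega
        rw [this]
        push_cast
        ring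
      rw [this, mul_div_cancel₀ _ (by positivity)]
  rw [CStarMatrix.sub_apply, band_apply]
  have a3 := norm_sub_le_norm_sub_add_norm_sub (c i j)
    (∑ k ∈ Finset.Icc (-(K : ℤ)) K, s.mon (f i j k) k)
    (∑ k ∈ Finset.Icc (-(K : ℤ)) K, s.mon (g i j k) k)
  linarith

theorem vec_cut_mon (e : C(X, ℂ)) (x : X) (n : ℤ) {K : ℕ}
    (he : ∀ l : ℤ, |l - n| ≤ K → e ((h ^ l) x) = 1) (f : C(X, ℂ)) {k : ℤ} (hk : |k| ≤ K) :
    s.vec x n (s.π e * s.mon f k * s.π e) = s.vec x n (s.mon f k) := by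
  rw [vec_mul, vec_apply, s.lpi, he n (by simp), one_smul, ← vec_apply, vec_mul, vec_mon, map_smul,
    s.lpi, he (n + k) (by simpa using hk), one_smul]

/-- the cutoff -/
noncomputable def cutE (ι : Type*) [Fintype ι] [DecidableEq ι] (ρ : C(X, ℝ)) (K : ℕ) :
    CStarMatrix ι ι A := dg ι (s.π (theta h ρ K))

theorem cutE_sa (ρ : C(X, ℝ)) (K : ℕ) : IsSelfAdjoint (s.cutE ι ρ K) := by
  rw [IsSelfAdjoint, cutE, ← map_star, ← map_star, star_theta]

theorem norm_cutE {ρ : C(X, ℝ)} (hρ : ∀ x, 0 ≤ ρ x ∧ ρ x ≤ 1) (K : ℕ) : ‖s.cutE ι ρ K‖ ≤ 1 := by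
  refine (NonUnitalStarAlgHom.norm_apply_le (dg (A := A) ι) _).trans
    ((NonUnitalStarAlgHom.norm_apply_le s.π _).trans ?_)
  refine (ContinuousMap.norm_le _ zero_le_one).2 fun z => ?_
  rw [theta_apply, Complex.norm_real, Real.norm_eq_abs,
    abs_of_nonneg (Finset.prod_nonneg fun l _ => (hρ _).1)]
  exact Finset.prod_le_one (fun l _ => (hρ _).1) fun l _ => (hρ _).2

theorem exists_cut {c : CStarMatrix ι ι A} (hc : IsSelfAdjoint c) {K : ℕ}
    {g : ι → ι → ℤ → C(X, ℂ)} {η : ℝ} (hη : ‖c - s.band K g‖ ≤ η) {ρ : C(X, ℝ)}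
    (hρ : ∀ x, 0 ≤ ρ x ∧ ρ x ≤ 1) {t : ℝ} (ht : 0 ≤ t) :
    ∃ c₁ c₂ : CStarMatrix ι ι A, IsSelfAdjoint c₁ ∧ IsSelfAdjoint c₂ ∧ ‖c - c₁‖ ≤ η ∧
      c₂ = s.cutE ι ρ K * c₁ * s.cutE ι ρ K + t • ((1 - s.cutE ι ρ K) * (1 - s.cutE ι ρ K)) ∧
      ‖c - c₂‖ ≤ 2 * ‖c‖ + η + 4 * t ∧
      (∀ S : StarSubalgebra ℂ A, s.mon (cf ρ) 1 ∈ S →
        (∀ l : ℕ, l < K → s.π (powComp h (-(l : ℤ)) (cf ρ)) ∈ S) →
        (∀ i j, ∀ k ∈ Finset.Icc (-(K : ℤ)) K, s.π (g i j k) ∈ S) → c₂ ∈ matAlg ι S) ∧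
      ∀ x (n : ℤ), (∀ l : ℤ, |l - n| ≤ (2 * K : ℕ) → ρ ((h ^ l) x) = 1) →
        ∀ i j, ‖s.vec x n ((c - c₂) i j)‖ ≤ η := by
  set e := s.cutE ι ρ K with he
  have hes : IsSelfAdjoint e := s.cutE_sa ρ K
  have he1 : ‖e‖ ≤ 1 := s.norm_cutE hρ K
  set b := s.band K g with hb
  set c₁ : CStarMatrix ι ι A := (2⁻¹ : ℂ) • (b + star b) with hc₁
  have h1 : IsSelfAdjoint c₁ := by
    rw [IsSelfAdjoint, hc₁, star_smul, star_add, star_star, add_comm]
    simp
  have h2 : ‖c - c₁‖ ≤ η := by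
    have e1 : c - c₁ = (2⁻¹ : ℂ) • ((c - b) + star (c - b)) := by
      rw [star_sub, hc.star_eq, hc₁]
      module
    have a1 := norm_add_le (c - b) (star (c - b))
    rw [norm_star] at a1
    rw [e1, norm_smul, norm_inv, Complex.norm_ofNat]
    linarith
  have he' : IsSelfAdjoint (1 - e) := (IsSelfAdjoint.one _).sub hes
  refine ⟨c₁, _, h1, ?_, h2, rfl, ?_, fun S a1 a2 a3 => ?_, fun x n hx i j => ?_⟩
  · refine IsSelfAdjoint.add ?_ ((IsSelfAdjoint.all t).smul ?_)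
    · rw [IsSelfAdjoint, star_mul, star_mul, hes.star_eq, h1.star_eq, mul_assoc]
    · rw [IsSelfAdjoint, star_mul, he'.star_eq]
  · have a1 : ‖c₁‖ ≤ ‖c‖ + η := by
      have := norm_sub_le c (c - c₁)
      rw [sub_sub_cancel] at this
      linarith
    have a2 : ‖e * c₁ * e‖ ≤ ‖c₁‖ := by
      have b1 := norm_mul_le (e * c₁) e
      have b2 := norm_mul_le e c₁
      have b3 : ‖e‖ * ‖c₁‖ ≤ ‖c₁‖ := by nlinarith [norm_nonneg e, norm_nonneg c₁]
      nlinarith [norm_nonneg e, norm_nonneg (e * c₁)]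
    have a3 : ‖1 - e‖ ≤ 2 := by
      have := norm_sub_le 1 e
      linarith [norm_one_le' (B := CStarMatrix ι ι A)]
    have a4 : ‖t • ((1 - e) * (1 - e))‖ ≤ 4 * t := by
      rw [norm_smul, Real.norm_eq_abs, abs_of_nonneg ht, mul_comm]
      refine mul_le_mul_of_nonneg_right ((norm_mul_le _ _).trans ?_) ht
      nlinarith [norm_nonneg (1 - e)]
    have a5 := norm_sub_le c (e * c₁ * e + t • ((1 - e) * (1 - e)))
    have a6 := norm_add_le (e * c₁ * e) (t • ((1 - e) * (1 - e)))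
    linarith
  · have b0 : e ∈ matAlg ι S := by
      intro i j
      rw [he, cutE, dg_apply]
      split_ifs
      · have := cut_mem a1 K a2 0 (Nat.zero_le _)
        rwa [Nat.cast_zero, mon_zero] at this
      · exact zero_mem _
    have b1 : e * b * e ∈ matAlg ι S := by
      intro i j
      rw [he, cutE, dg_conj_apply, hb, band_apply, Finset.mul_sum, Finset.sum_mul]
      exact sum_mem fun k hk => cut_mon_mem a1 K a2 (a3 i j k hk) (abs_le.2 (Finset.mem_Icc.1 hk))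
    have b2 : e * c₁ * e = (2⁻¹ : ℂ) • (e * b * e + star (e * b * e)) := by
      rw [star_mul, star_mul, hes.star_eq, hc₁, mul_smul_comm, smul_mul_assoc, mul_add, add_mul,
        mul_assoc e (star b)]
    refine add_mem ?_ ?_
    · rw [b2]
      exact SMulMemClass.smul_mem _ (add_mem b1 (star_mem b1))
    · rw [← Complex.coe_smul]
      exact SMulMemClass.smul_mem _ (mul_mem (sub_mem (one_mem _) b0) (sub_mem (one_mem _) b0))
  · have b0 : ∀ l : ℤ, |l - n| ≤ K → theta h ρ K ((h ^ l) x) = 1 := by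
      intro l hl
      rw [theta_apply, Finset.prod_eq_one, Complex.ofReal_one]
      intro p hp
      have := Finset.mem_range.1 hp
      rw [zpow_app]
      refine hx _ ?_
      rw [abs_le] at hl ⊢
      omega
    have b1 : s.vec x n ((e * c₁ * e) i j) = s.vec x n (c₁ i j) := by
      have : c₁ i j = (2⁻¹ : ℂ) • (∑ k ∈ Finset.Icc (-(K : ℤ)) K, s.mon (g i j k) k +
          ∑ k ∈ Finset.Icc (-(K : ℤ)) K, star (s.mon (g j i k) k)) := by
        rw [← star_sum]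
        rfl
      rw [he, cutE, dg_conj_apply, this, mul_smul_comm, smul_mul_assoc, map_smul, map_smul, mul_add,
        add_mul, map_add, map_add, Finset.mul_sum, Finset.sum_mul, Finset.mul_sum, Finset.sum_mul,
        map_sum, map_sum, map_sum, map_sum]
      congr 2
      · exact Finset.sum_congr rfl fun k hk =>
          s.vec_cut_mon _ x n b0 _ (abs_le.2 (Finset.mem_Icc.1 hk))
      · refine Finset.sum_congr rfl fun k hk => ?_
        rw [star_mon]
        exact s.vec_cut_mon _ x n b0 _ (by rw [abs_neg]; exact abs_le.2 (Finset.mem_Icc.1 hk))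
    have b2 : s.vec x n (((1 - e) * (1 - e)) i j) = 0 := by
      have : (1 - e) * (1 - e) = dg ι (s.π ((1 - theta h ρ K) * (1 - theta h ρ K))) := by
        simp only [map_mul, map_sub, map_one, he, cutE]
      rw [this, dg_apply]
      split_ifs
      · rw [vec_apply, s.lpi]
        simp [b0 n (by simp)]
      · exact map_zero _
    have b3 : (c - (e * c₁ * e + t • ((1 - e) * (1 - e)))) i j =
        c i j - ((e * c₁ * e) i j + (t : ℂ) • ((1 - e) * (1 - e)) i j) := rfl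
    rw [b3, map_sub, map_add, map_smul, b1, b2, smul_zero, add_zero, ← map_sub]
    exact (s.norm_vec_le _ _ _).trans ((CStarMatrix.norm_entry_le_norm (M := c - c₁)).trans h2)

theorem trace_sq_le (x : X) (r : ℕ) (d : CStarMatrix ι ι A) {η C : ℝ} (hC : ‖d‖ ≤ C)
    (B : Finset (Fin r)) (hB : ∀ n ∉ B, ∀ i j, ‖s.vec x (n : ℕ) (d i j)‖ ≤ η) :
    (trace (s.blk x r (star d * d))).re ≤
      (Fintype.card ι : ℝ) ^ 2 * (η ^ 2 * r + C ^ 2 * B.card) := by
  classical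
  have h1 : ∀ (n : Fin r) i j, ‖s.vec x (n : ℕ) (d i j)‖ ^ 2 ≤
      η ^ 2 + if n ∈ B then C ^ 2 else 0 := by
    intro n i j
    split_ifs with hn
    · have := pow_le_pow_left₀ (norm_nonneg _) ((s.norm_vec_le x (n : ℕ) (d i j)).trans
        (CStarMatrix.norm_entry_le_norm.trans hC)) 2
      nlinarith [sq_nonneg η]
    · rw [add_zero]
      exact pow_le_pow_left₀ (norm_nonneg _) (hB n hn i j) 2
  have h2 : (trace (s.blk x r (star d * d))).re =
      ∑ j, ∑ n : Fin r, ∑ i, ‖s.vec x (n : ℕ) (d i j)‖ ^ 2 := by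
    rw [trace_blk]
    simp only [CStarMatrix.mul_apply, CStarMatrix.star_apply, map_sum, ker_star_mul_self,
      Complex.re_sum, Complex.ofReal_re]
  rw [h2]
  refine (Finset.sum_le_sum fun j _ => Finset.sum_le_sum fun n _ =>
    Finset.sum_le_sum fun i _ => h1 n i j).trans (le_of_eq ?_)
  simp only [Finset.sum_const, Finset.card_univ, nsmul_eq_mul, ← Finset.mul_sum,
    Finset.sum_add_distrib, Finset.sum_ite_mem, Finset.univ_inter, Fintype.card_fin]
  ring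

end Sys

end Vale.Agent.P093Z
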