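import Vale.Agent.P093Z.Lip
import Mathlib.Topology.MetricSpace.HausdorffDimension
import Mathlib.LinearAlgebra.Complex.FiniteDimensional
import Mathlib.Analysis.Calculus.FDeriv.Analytic
import Mathlib.Analysis.Calculus.ContDiff.RCLike
import Mathlib.Analysis.Calculus.ContDiff.Operations
import Mathlib.LinearAlgebra.Matrix.Rank

/-!
# P093, upper bound: general position by Hausdorff dimension

`dimH_zero_le` : the zero set of a family of equations over a Lipschitz parameter space.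
`dimH_bad_le` : the set of the coefficients `w` for which `A x ξ = 0`, `(∑ w i G x i) ξ = 0` has a
solution `ξ ≠ 0` for some `x`.
-/

set_option linter.unusedSectionVars false

open Set Filter Topology Module

namespace Vale.Agent.P093Z

section General

variable {J E T U V : Type*} [NormedAddCommGroup E] [NormedSpace ℝ E] [FiniteDimensional ℝ E]
  [NormedAddCommGroup T] [NormedSpace ℂ T] [NormedAddCommGroup U] [NormedSpace ℂ U]
  [FiniteDimensional ℂ U] [NormedAddCommGroup V] [NormedSpace ℂ V]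

theorem dimH_le_of_anti {Y K : Type*} [MetricSpace Y] [NormedAddCommGroup K] [NormedSpace ℝ K]
    [FiniteDimensional ℝ K] {t : Set Y} (φ : Y → K) (M : ℝ) (hM : 0 ≤ M)
    (h : ∀ z ∈ t, ∀ z' ∈ t, dist z z' ≤ M * dist (φ z) (φ z')) : dimH t ≤ finrank ℝ K := by
  have ha : AntilipschitzWith ⟨M, hM⟩ (fun z : t => φ z) :=
    AntilipschitzWith.of_le_mul_dist fun z z' => h z z.2 z' z'.2
  have h1 := ha.dimH_preimage_le univ
  rw [preimage_univ, Real.dimH_univ_eq_finrank] at h1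
  have h2 := (isometry_subtype_coe (s := t)).dimH_image univ
  rw [image_univ, Subtype.range_coe] at h2
  rw [h2]
  exact h1

theorem dimH_zero_le (p : J → E) (F : J → T) (S : Set J) (hF : Lip p S F) (H : T × U → V) (κ : ℕ)
    (Z : J → Set U)
    (hz : ∀ x ∈ S, ∀ u ∈ Z x, H (F x, u) = 0 ∧ ∃ H' : T × U →L[ℂ] V,
      HasStrictFDerivAt H H' (F x, u) ∧
      finrank ℂ (LinearMap.ker (H'.toLinearMap ∘ₗ LinearMap.inr ℂ T U)) ≤ κ) :
    dimH {z : E × U | ∃ x ∈ S, z.1 = p x ∧ z.2 ∈ Z x} ≤ (finrank ℝ E + 2 * κ : ℕ) := by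
  have : FiniteDimensional ℝ U := Module.Finite.trans ℂ U
  have : ProperSpace U := FiniteDimensional.proper_real U
  have : ProperSpace E := FiniteDimensional.proper_real E
  obtain ⟨C, hC, -, hF⟩ := hF
  by_contra hlt
  obtain ⟨z₀, ⟨x₀, hx₀, hp₀, hu₀⟩, hz₀⟩ := exists_mem_nhdsWithin_lt_dimH_of_lt_dimH (not_le.1 hlt)
  obtain ⟨-, H', hH, hk⟩ := hz x₀ hx₀ z₀.2 hu₀
  set D : U →ₗ[ℂ] V := H'.toLinearMap ∘ₗ LinearMap.inr ℂ T U with hD
  obtain ⟨K', hK'⟩ := Submodule.exists_isCompl (LinearMap.ker D)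
  set pr : U →ₗ[ℂ] LinearMap.ker D := (LinearMap.ker D).projectionOnto K' hK' with hpr
  have hker : LinearMap.ker (pr.prod D) = ⊥ := by
    rw [LinearMap.ker_eq_bot']
    intro u hu
    have a1 : pr u = 0 := congrArg Prod.fst hu
    have a2 : D u = 0 := congrArg Prod.snd hu
    rw [hpr, Submodule.projectionOnto_apply_of_mem_left hK' a2] at a1
    exact congrArg Subtype.val a1
  obtain ⟨c, hc, hac⟩ := LinearMap.exists_antilipschitzWith _ hker
  have hc' : (0 : ℝ) < c := hc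
  have hlow : ∀ u : U, ‖u‖ ≤ c * (‖pr u‖ + ‖D u‖) := by
    intro u
    have a1 := hac.le_mul_dist u 0
    rw [map_zero, dist_zero_right, dist_zero_right] at a1
    refine a1.trans (mul_le_mul_of_nonneg_left ?_ hc'.le)
    change max ‖pr u‖ ‖D u‖ ≤ _
    exact max_le (le_add_of_nonneg_right (norm_nonneg _)) (le_add_of_nonneg_left (norm_nonneg _))
  set ε : ℝ := 1 / (2 * c) with hε
  have hε0 : 0 < ε := by positivity
  have h1 := hH.isLittleO.def hε0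
  obtain ⟨δ, hδ, h2⟩ := Metric.eventually_nhds_iff.1 h1
  set ρ : ℝ := δ / (C + 1) with hρ
  have hρ0 : 0 < ρ := by positivity
  have hρ1 : ρ ≤ δ := div_le_self hδ.le (by linarith)
  have hρ2 : C * ρ < δ := by
    rw [hρ, ← mul_div_assoc, div_lt_iff₀ (by positivity)]
    nlinarith
  have hnear : ∀ z : E × U, ∀ x ∈ S, z.1 = p x → dist z z₀ < ρ →
      dist (F x, z.2) (F x₀, z₀.2) < δ := by
    intro z x hx hp hd
    rw [Prod.dist_eq, max_lt_iff] at hd ⊢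
    refine ⟨?_, hd.2.trans_le hρ1⟩
    have a1 := hF x hx x₀ hx₀
    rw [← hp, ← hp₀, ← dist_eq_norm, ← dist_eq_norm] at a1
    exact a1.trans_lt ((mul_le_mul_of_nonneg_left hd.1.le hC).trans_lt hρ2)
  set Zt : Set (E × U) := {z : E × U | ∃ x ∈ S, z.1 = p x ∧ z.2 ∈ Z x} with hZt
  have hmem : Zt ∩ Metric.ball z₀ ρ ∈ 𝓝[Zt] z₀ :=
    inter_mem_nhdsWithin _ (Metric.ball_mem_nhds _ hρ0)
  refine absurd (hz₀ _ hmem) (not_lt.2 ?_)
  have : FiniteDimensional ℝ (LinearMap.ker D) := Module.Finite.trans ℂ _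
  have hb := dimH_le_of_anti (t := Zt ∩ Metric.ball z₀ ρ)
    (fun z : E × U => ((z.1, pr z.2) : E × LinearMap.ker D))
    (1 + 2 * c * (1 + (ε + ‖H'‖) * C)) (by positivity) ?_
  · refine hb.trans ?_
    rw [finrank_prod, finrank_real_of_complex]
    exact_mod_cast Nat.add_le_add_left (Nat.mul_le_mul_left 2 hk) _
  rintro z ⟨⟨x, hx, hp, hu⟩, hzb⟩ z' ⟨⟨x', hx', hp', hu'⟩, hzb'⟩
  have a1 : dist (((F x, z.2), (F x', z'.2)) : (T × U) × (T × U))
      ((F x₀, z₀.2), (F x₀, z₀.2)) < δ := by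
    rw [Prod.dist_eq, max_lt_iff]
    exact ⟨hnear z x hx hp hzb, hnear z' x' hx' hp' hzb'⟩
  have a2 := h2 a1
  simp only [(hz x hx _ hu).1, (hz x' hx' _ hu').1, sub_zero, zero_sub, norm_neg] at a2
  have a3 : ((F x, z.2) : T × U) - (F x', z'.2) = (F x - F x', 0) + (0, z.2 - z'.2) := by simp
  have a4 : D (z.2 - z'.2) = H' ((F x, z.2) - (F x', z'.2)) - H' (F x - F x', 0) := by
    rw [a3, map_add, add_sub_cancel_left]
    rfl
  have a5 : ‖H' (F x - F x', 0)‖ ≤ ‖H'‖ * ‖F x - F x'‖ := by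
    refine (H'.le_opNorm _).trans (le_of_eq ?_)
    simp [Prod.norm_def]
  have a6 : ‖((F x, z.2) : T × U) - (F x', z'.2)‖ ≤ ‖F x - F x'‖ + ‖z.2 - z'.2‖ := by
    change max ‖F x - F x'‖ ‖z.2 - z'.2‖ ≤ _
    exact max_le (le_add_of_nonneg_right (norm_nonneg _)) (le_add_of_nonneg_left (norm_nonneg _))
  have a7 : ‖D (z.2 - z'.2)‖ ≤ ε * (‖F x - F x'‖ + ‖z.2 - z'.2‖) + ‖H'‖ * ‖F x - F x'‖ := by
    rw [a4]
    exact (norm_sub_le _ _).trans (add_le_add (a2.trans (mul_le_mul_of_nonneg_left a6 hε0.le)) a5)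
  set m : ℝ := dist ((z.1, pr z.2) : E × LinearMap.ker D) (z'.1, pr z'.2) with hm
  have b1 : ‖z.1 - z'.1‖ ≤ m := by
    rw [← dist_eq_norm]
    exact le_max_left _ _
  have b2 : ‖pr (z.2 - z'.2)‖ ≤ m := by
    rw [map_sub, ← dist_eq_norm]
    exact le_max_right _ _
  have b0 : 0 ≤ m := dist_nonneg
  have b3 : ‖F x - F x'‖ ≤ C * m := by
    have := hF x hx x' hx'
    rw [← hp, ← hp'] at this
    exact this.trans (mul_le_mul_of_nonneg_left b1 hC)
  have b4 := hlow (z.2 - z'.2)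
  have b5 : (c : ℝ) * ε = 1 / 2 := by rw [hε]; field_simp
  have b6 : ‖z.2 - z'.2‖ ≤ 2 * c * (1 + (ε + ‖H'‖) * C) * m := by
    have c1 : (ε + ‖H'‖) * ‖F x - F x'‖ ≤ (ε + ‖H'‖) * (C * m) :=
      mul_le_mul_of_nonneg_left b3 (by positivity)
    have c2 : ‖pr (z.2 - z'.2)‖ + ‖D (z.2 - z'.2)‖ ≤
        m + (ε + ‖H'‖) * (C * m) + ε * ‖z.2 - z'.2‖ := by linarith
    have c3 := b4.trans (mul_le_mul_of_nonneg_left c2 hc'.le)
    have c4 : (c : ℝ) * (m + (ε + ‖H'‖) * (C * m) + ε * ‖z.2 - z'.2‖) =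
        c * (1 + (ε + ‖H'‖) * C) * m + (c * ε) * ‖z.2 - z'.2‖ := by ring
    rw [c4, b5] at c3
    linarith
  rw [Prod.dist_eq, dist_eq_norm, dist_eq_norm]
  have b7 : 0 ≤ 2 * c * (1 + (ε + ‖H'‖) * C) * m := by positivity
  refine max_le ?_ ?_ <;> nlinarith

end General

section Matrices

open Matrix

variable {J ιa ιb I : Type*} [Fintype ιa] [Fintype ιb] [Fintype I] [DecidableEq ιa]

/-- the linear map `w ↦ (∑ w i G i) ξ` -/
noncomputable def evalMap (G : I → Matrix ιb ιa ℂ) (ξ : ιa → ℂ) : (I → ℂ) →ₗ[ℂ] (ιb → ℂ) where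
  toFun w := ∑ i, w i • (G i *ᵥ ξ)
  map_add' w w' := by simp [add_smul, Finset.sum_add_distrib]
  map_smul' c w := by simp [Finset.smul_sum, smul_smul]

theorem evalMap_apply (G : I → Matrix ιb ιa ℂ) (ξ : ιa → ℂ) (w : I → ℂ) :
    evalMap G ξ w = ∑ i, w i • (G i *ᵥ ξ) := rfl

/-- the equations -/
noncomputable def eqn (q : ((ιa → ιa → ℂ) × (I → ιb → ιa → ℂ)) × ((ιa → ℂ) × (I → ℂ))) :
    (ιa → ℂ) × (ιb → ℂ) :=
  (fun k => ∑ l, q.1.1 k l * q.2.1 l, fun k => ∑ i, q.2.2 i * ∑ l, q.1.2 i k l * q.2.1 l)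

theorem contDiff_eqn : ContDiff ℂ 1 (eqn (ιa := ιa) (ιb := ιb) (I := I)) := by
  unfold eqn
  fun_prop

theorem finrank_ker_le {U₁ U₂ V₁ V₂ : Type*} [AddCommGroup U₁] [Module ℂ U₁] [AddCommGroup U₂]
    [Module ℂ U₂] [AddCommGroup V₁] [Module ℂ V₁] [AddCommGroup V₂] [Module ℂ V₂]
    [FiniteDimensional ℂ U₁] [FiniteDimensional ℂ U₂]
    (D : U₁ × U₂ →ₗ[ℂ] V₁ × V₂) (A : U₁ →ₗ[ℂ] V₁) (B : U₂ →ₗ[ℂ] V₂)
    (h1 : ∀ u, (D u).1 = A u.1) (h2 : ∀ v, (D (0, v)).2 = B v) :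
    finrank ℂ (LinearMap.ker D) ≤ finrank ℂ (LinearMap.ker A) + finrank ℂ (LinearMap.ker B) := by
  let f : LinearMap.ker D →ₗ[ℂ] U₁ := LinearMap.fst ℂ U₁ U₂ ∘ₗ (LinearMap.ker D).subtype
  rw [← LinearMap.finrank_range_add_finrank_ker f]
  refine Nat.add_le_add (Submodule.finrank_mono ?_) ?_
  · rintro _ ⟨u, rfl⟩
    have a1 : D u = 0 := u.2
    rw [LinearMap.mem_ker]
    change A u.1.1 = 0
    rw [← h1, a1]
    rfl
  · let g : LinearMap.ker f →ₗ[ℂ] LinearMap.ker B :=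
      LinearMap.codRestrict _ (LinearMap.snd ℂ U₁ U₂ ∘ₗ (LinearMap.ker D).subtype ∘ₗ
        (LinearMap.ker f).subtype) fun u => by
        have a1 : D u.1.1 = 0 := u.1.2
        have a2 : u.1.1.1 = 0 := u.2
        rw [LinearMap.mem_ker]
        change B u.1.1.2 = 0
        have a3 : u.1.1 = (0, u.1.1.2) := Prod.ext a2 rfl
        rw [← h2, ← a3, a1]
        rfl
    refine LinearMap.finrank_le_finrank_of_injective (f := g) ?_
    rw [injective_iff_map_eq_zero]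
    intro u hu
    have a2 : u.1.1.1 = 0 := u.2
    have a3 : u.1.1.2 = 0 := congrArg Subtype.val hu
    exact Subtype.ext (Subtype.ext (Prod.ext a2 a3))

theorem dimH_bad_aux {E : Type*} [NormedAddCommGroup E] [NormedSpace ℝ E] [FiniteDimensional ℝ E]
    (p : J → E) (S : Set J) (A : J → Matrix ιa ιa ℂ) (G : J → I → Matrix ιb ιa ℂ)
    (hA : ∀ k l, Lip p S fun x => A x k l) (hG : ∀ i k l, Lip p S fun x => G x i k l) (κ : ℕ)
    (hk : ∀ x ∈ S, ∀ ξ : ιa → ℂ, ξ ≠ 0 → finrank ℂ (LinearMap.ker (A x).mulVecLin) +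
      finrank ℂ (LinearMap.ker (evalMap (G x) ξ)) ≤ κ) :
    dimH {w : I → ℂ | ∃ x ∈ S, ∃ ξ : ιa → ℂ, ξ ≠ 0 ∧ A x *ᵥ ξ = 0 ∧ evalMap (G x) ξ w = 0} ≤
      (finrank ℝ E + 2 * κ : ℕ) := by
  let F : J → (ιa → ιa → ℂ) × (I → ιb → ιa → ℂ) := fun x =>
    (fun k l => A x k l, fun i k l => G x i k l)
  have hF : Lip p S F :=
    (Lip.pi fun k => Lip.pi fun l => hA k l).prodMk
      (Lip.pi fun i => Lip.pi fun k => Lip.pi fun l => hG i k l)
  let Z : J → Set ((ιa → ℂ) × (I → ℂ)) := fun x =>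
    {u | u.1 ≠ 0 ∧ A x *ᵥ u.1 = 0 ∧ evalMap (G x) u.1 u.2 = 0}
  have he : ∀ x u, eqn (F x, u) = (A x *ᵥ u.1, evalMap (G x) u.1 u.2) := by
    intro x u
    refine Prod.ext rfl ?_
    funext k
    simp only [eqn, F, evalMap_apply, Finset.sum_apply, Pi.smul_apply, smul_eq_mul]
    rfl
  have h1 := dimH_zero_le p F S hF eqn κ Z ?_
  · refine le_trans ?_ h1
    have hl : LipschitzWith 1 (fun z : E × ((ιa → ℂ) × (I → ℂ)) => z.2.2) := by
      have := (LipschitzWith.prod_snd (α := ιa → ℂ) (β := I → ℂ)).comp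
        (LipschitzWith.prod_snd (α := E) (β := (ιa → ℂ) × (I → ℂ)))
      rw [one_mul] at this
      exact this
    refine le_trans (dimH_mono ?_) (hl.dimH_image_le _)
    rintro w ⟨x, hx, ξ, h0, h1, h2⟩
    exact ⟨(p x, (ξ, w)), ⟨x, hx, rfl, h0, h1, h2⟩, rfl⟩
  intro x hx u ⟨h0, h1, h2⟩
  refine ⟨by rw [he, h1, h2]; rfl, _, contDiff_eqn.contDiffAt.hasStrictFDerivAt one_ne_zero, ?_⟩
  refine le_trans ?_ (hk x hx u.1 h0)
  have hd : HasFDerivAt eqn (fderiv ℂ eqn (F x, u)) (F x, u) :=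
    (contDiff_eqn.contDiffAt.hasStrictFDerivAt one_ne_zero).hasFDerivAt
  have hin : HasFDerivAt (fun u' : (ιa → ℂ) × (I → ℂ) => (F x, u'))
      (ContinuousLinearMap.inr ℂ _ _) u := hasFDerivAt_prodMk_right (F x) u
  have hc := hd.comp u hin
  refine finrank_ker_le _ _ _ (fun η => ?_) fun v => ?_
  · have a1 := (ContinuousLinearMap.fst ℂ (ιa → ℂ) (ιb → ℂ)).hasFDerivAt.comp u hc
    let L : (ιa → ℂ) × (I → ℂ) →L[ℂ] (ιa → ℂ) :=
      LinearMap.toContinuousLinearMap ((A x).mulVecLin ∘ₗ LinearMap.fst ℂ _ _)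
    have a2 : HasFDerivAt L L u := L.hasFDerivAt
    have a3 := a1.unique (a2.congr_of_eventuallyEq (Eventually.of_forall fun u' => by
      simp only [Function.comp_apply, he]
      rfl))
    exact congrArg (fun M => M η) a3
  · have b0 : HasFDerivAt (fun w : I → ℂ => ((u.1, w) : (ιa → ℂ) × (I → ℂ)))
        (ContinuousLinearMap.inr ℂ _ _) u.2 := hasFDerivAt_prodMk_right u.1 u.2
    have a1 := (ContinuousLinearMap.snd ℂ (ιa → ℂ) (ιb → ℂ)).hasFDerivAt.comp u.2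
      (hc.comp u.2 b0)
    let L : (I → ℂ) →L[ℂ] (ιb → ℂ) := LinearMap.toContinuousLinearMap (evalMap (G x) u.1)
    have a2 : HasFDerivAt L L u.2 := L.hasFDerivAt
    have a3 := a1.unique (a2.congr_of_eventuallyEq (Eventually.of_forall fun u' => by
      simp only [Function.comp_apply, he]
      rfl))
    exact congrArg (fun M => M v) a3

/-- general position for a sparse parameter -/
theorem dimH_bad_le {Λ : Type*} [Fintype Λ] (e : J → Λ → ℝ) (S : Set J) (d : ℕ)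
    (hd : ∀ x ∈ S, {l | e x l ≠ 0}.ncard ≤ d)
    (A : J → Matrix ιa ιa ℂ) (G : J → I → Matrix ιb ιa ℂ)
    (hA : ∀ k l, Lip e S fun x => A x k l) (hG : ∀ i k l, Lip e S fun x => G x i k l) (κ : ℕ)
    (hk : ∀ x ∈ S, ∀ ξ : ιa → ℂ, ξ ≠ 0 → finrank ℂ (LinearMap.ker (A x).mulVecLin) +
      finrank ℂ (LinearMap.ker (evalMap (G x) ξ)) ≤ κ) :
    dimH {w : I → ℂ | ∃ x ∈ S, ∃ ξ : ιa → ℂ, ξ ≠ 0 ∧ A x *ᵥ ξ = 0 ∧ evalMap (G x) ξ w = 0} ≤
      (d + 2 * κ : ℕ) := by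
  classical
  let P : Finset Λ → Set J := fun s => {x ∈ S | s.card ≤ d ∧ ∀ l ∉ s, e x l = 0}
  have hsub : {w : I → ℂ | ∃ x ∈ S, ∃ ξ : ιa → ℂ, ξ ≠ 0 ∧ A x *ᵥ ξ = 0 ∧ evalMap (G x) ξ w = 0} ⊆
      ⋃ s : Finset Λ, {w : I → ℂ | ∃ x ∈ P s, ∃ ξ : ιa → ℂ, ξ ≠ 0 ∧ A x *ᵥ ξ = 0 ∧
        evalMap (G x) ξ w = 0} := by
    rintro w ⟨x, hx, hw⟩
    refine mem_iUnion.2 ⟨Finset.univ.filter fun l => e x l ≠ 0, x, ⟨hx, ?_, fun l hl => ?_⟩, hw⟩
    · have := hd x hx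
      rwa [Set.ncard_eq_toFinset_card', Set.toFinset_ofPred] at this
    · simpa using hl
  refine (dimH_mono hsub).trans ?_
  rw [dimH_iUnion]
  refine iSup_le fun s => ?_
  by_cases hs : s.card ≤ d
  · have key : ∀ φ : J → ℂ, Lip e S φ → Lip (fun x (l : s) => e x l) (P s) φ := by
      rintro φ ⟨C, h0, h1, h2⟩
      refine ⟨C, h0, fun x hx => h1 x hx.1, fun x hx y hy => (h2 x hx.1 y hy.1).trans ?_⟩
      refine mul_le_mul_of_nonneg_left ((pi_norm_le_iff_of_nonneg (norm_nonneg _)).2 fun l => ?_) h0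
      by_cases hl : l ∈ s
      · exact norm_le_pi_norm ((fun l : s => e x l) - fun l : s => e y l) ⟨l, hl⟩
      · rw [Pi.sub_apply, hx.2.2 l hl, hy.2.2 l hl, sub_zero, norm_zero]
        exact norm_nonneg _
    refine (dimH_bad_aux (fun x (l : s) => e x l) (P s) A G (fun k l => key _ (hA k l))
      (fun i k l => key _ (hG i k l)) κ fun x hx => hk x hx.1).trans ?_
    rw [finrank_fintype_fun_eq_card, Fintype.card_coe]
    exact_mod_cast Nat.add_le_add_right hs _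
  · have : {w : I → ℂ | ∃ x ∈ P s, ∃ ξ : ιa → ℂ, ξ ≠ 0 ∧ A x *ᵥ ξ = 0 ∧
        evalMap (G x) ξ w = 0} = ∅ := by
      rw [eq_empty_iff_forall_notMem]
      rintro w ⟨x, hx, -⟩
      exact hs hx.2.1
    rw [this, dimH_empty]
    exact zero_le

/-- a point outside countably many small sets -/
theorem exists_generic (B : ℕ → Set (I → ℂ)) (n : ℕ) (hn : n < 2 * Fintype.card I)
    (hB : ∀ r, dimH (B r) ≤ n) : ∃ w, ∀ r, w ∉ B r := by
  have h1 : dimH (⋃ r, B r) < finrank ℝ (I → ℂ) := by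
    rw [dimH_iUnion, finrank_real_of_complex, finrank_fintype_fun_eq_card]
    exact (iSup_le hB).trans_lt (by exact_mod_cast hn)
  obtain ⟨w, hw⟩ := (dense_compl_of_dimH_lt_finrank h1).nonempty
  exact ⟨w, fun r hr => hw (mem_iUnion.2 ⟨r, hr⟩)⟩

end Matrices

end Vale.Agent.P093Z
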