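import Vale.Agent.P093Z.Blk
import Vale.Agent.P093Z.Dim

/-!
# P093, upper bound: general position in the orbit breaking subalgebra

`Sys.lipAlg` : the elements whose blocks of length `r` are Lipschitz functions of a parameter.
`Sys.exists_gen` : a matrix `w` in general position with respect to two spectral subspaces.
-/

set_option linter.unusedSectionVars false
set_option backward.isDefEq.respectTransparency false

open Set Filter Topology Vale.Agent.P093 Matrix Module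

namespace Vale.Agent.P093Z

variable {X : Type*} [TopologicalSpace X] [CompactSpace X] {h : X ≃ₜ X} {A : Type*}
  [CStarAlgebra A] [PartialOrder A] [StarOrderedRing A] {ι κ : Type*} [Fintype ι] [Fintype κ]
  [DecidableEq ι] [DecidableEq κ] {E : Type*} [NormedAddCommGroup E]

/-- the products of the translates of `ρ` -/
noncomputable def theta (h : X ≃ₜ X) (ρ : C(X, ℝ)) (K : ℕ) : C(X, ℂ) :=
  ∏ l ∈ Finset.range K, powComp h (-(l : ℤ)) (cf ρ)

theorem theta_apply (ρ : C(X, ℝ)) (K : ℕ) (z : X) :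
    theta h ρ K z = ((∏ l ∈ Finset.range K, ρ ((h ^ (-(l : ℤ))) z) : ℝ) : ℂ) := by
  rw [theta, ContinuousMap.prod_apply, Complex.ofReal_prod]
  rfl

theorem theta_succ (ρ : C(X, ℝ)) (K : ℕ) :
    theta h ρ (K + 1) = theta h ρ K * powComp h (-(K : ℤ)) (cf ρ) := Finset.prod_range_succ _ _

theorem star_theta (ρ : C(X, ℝ)) (K : ℕ) : star (theta h ρ K) = theta h ρ K := by
  ext z
  rw [ContinuousMap.star_apply, theta_apply, Complex.star_def, Complex.conj_ofReal]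

theorem theta_ne_zero {ρ : C(X, ℝ)} {r : ℕ} {x : X} (hx : FR h {x | ρ x = 0} r x) {n q : ℕ}
    (hn : n < r) (hq : q ≤ n) : theta h ρ q ((h ^ (n : ℤ)) x) ≠ 0 := by
  rw [theta_apply, Complex.ofReal_ne_zero, Finset.prod_ne_zero_iff]
  intro l hl
  have := Finset.mem_range.1 hl
  have e1 : -(l : ℤ) + n = ((n - l : ℕ) : ℤ) := by omega
  rw [zpow_app, e1]
  exact hx.2.2 (n - l) (by omega) (by omega)

theorem theta_eq_zero {ρ : C(X, ℝ)} {x : X} (hx : ρ x = 0) {n q : ℕ} (hq : n < q) :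
    theta h ρ q ((h ^ (n : ℤ)) x) = 0 := by
  rw [theta_apply, Complex.ofReal_eq_zero]
  refine Finset.prod_eq_zero (Finset.mem_range.2 hq) ?_
  rw [zpow_app, neg_add_cancel, zpow_zero]
  exact hx

namespace Sys

variable (s : Sys h A) (Y : Set X)

/-- elements with Lipschitz blocks -/
def lipAlg (r : ℕ) (e : X → E) : StarSubalgebra ℂ A where
  carrier := {c | c ∈ s.brk Y ∧
    ∀ m n : Fin r, Lip e {x | FR h Y r x} fun x => s.ker x (m : ℕ) (n : ℕ) c}
  mul_mem' := fun {c d} hc hd => ⟨mul_mem hc.1 hd.1, fun m n =>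
    (Lip.sum _ fun l _ => (hc.2 m l).mul (hd.2 l n)).congr fun _ hx =>
      (inv_of_mem hd.1).ker_mul hx.1 c _ n⟩
  add_mem' := fun {c d} hc hd => ⟨add_mem hc.1 hd.1, fun m n =>
    ((hc.2 m n).add (hd.2 m n)).congr fun _ _ => map_add _ _ _⟩
  algebraMap_mem' := fun a => ⟨(s.brk Y).algebraMap_mem a, fun m n =>
    (Lip.const (a * if ((m : ℕ) : ℤ) = (n : ℕ) then 1 else 0)).congr fun x _ => by
      rw [Algebra.algebraMap_eq_smul_one, map_smul, ker_one, smul_eq_mul]⟩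
  star_mem' := fun {c} hc => ⟨star_mem hc.1, fun m n =>
    (hc.2 n m).star.congr fun x _ => s.ker_star x _ _ c⟩

variable {s Y}

theorem pi_mem_lip {r : ℕ} {e : X → E} {f : C(X, ℂ)}
    (hf : ∀ j : ℕ, j < r → Lip e {x | FR h Y r x} fun x => f ((h ^ (j : ℤ)) x)) :
    s.π f ∈ s.lipAlg Y r e := by
  refine ⟨pi_mem f, fun m n => ?_⟩
  simp only [ker_pi]
  split_ifs
  · exact hf m m.2
  · exact Lip.const 0

theorem shift_mem_lip {r : ℕ} {e : X → E} {f : C(X, ℂ)} (h0 : ∀ y ∈ Y, f y = 0)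
    (hf : ∀ j : ℕ, j < r → Lip e {x | FR h Y r x} fun x => f ((h ^ (j : ℤ)) x)) :
    s.mon f 1 ∈ s.lipAlg Y r e := by
  refine ⟨shift_mem f h0, fun m n => ?_⟩
  simp only [ker_mon]
  split_ifs
  · exact hf m m.2
  · exact Lip.const 0

theorem posPart_mem_lip {r : ℕ} {e : X → E} {c : CStarMatrix ι ι A} (hs : IsSelfAdjoint c)
    (hc : c ∈ matAlg ι (s.lipAlg Y r e)) : c⁺ ∈ matAlg ι (s.lipAlg Y r e) := by
  have hb : c ∈ matAlg ι (s.brk Y) := fun i j => (hc i j).1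
  obtain ⟨C, h0, -, h2⟩ : Lip e {x | FR h Y r x}
      fun x (p q : ι × Fin r) => s.blk x r c p q :=
    Lip.pi fun p => Lip.pi fun q => (hc p.1 q.1).2 p.2 q.2
  refine fun i j => ⟨posPart_mem hb i j, fun m n => Lip.of ‖c⁺ i j‖
    (Fintype.card (ι × Fin r) * C) (fun x _ => s.norm_ker_le _ _ _ _) fun x hx y hy => ?_⟩
  have a1 := (entry_sq_le_hs _ (i, m) (j, n)).trans
    ((dec_blk hx.1 hs hb).hs_le (dec_blk hy.1 hs hb))
  have a2 : P093Z.hs (s.blk x r c - s.blk y r c) ≤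
      (Fintype.card (ι × Fin r) * C * ‖e x - e y‖) ^ 2 := by
    have b1 : ∀ p q, ‖(s.blk x r c - s.blk y r c) p q‖ ^ 2 ≤ (C * ‖e x - e y‖) ^ 2 := by
      intro p q
      refine pow_le_pow_left₀ (norm_nonneg _) (le_trans ?_ (h2 x hx y hy)) 2
      exact (norm_le_pi_norm _ q).trans (norm_le_pi_norm
        ((fun p q : ι × Fin r => s.blk x r c p q) - fun p q : ι × Fin r => s.blk y r c p q) p)
    refine (Finset.sum_le_sum fun p _ => Finset.sum_le_sum fun q _ => b1 p q).trans (le_of_eq ?_)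
    simp only [Finset.sum_const, Finset.card_univ, nsmul_eq_mul]
    ring
  exact (pow_le_pow_iff_left₀ (norm_nonneg _) (by positivity) two_ne_zero).1 (a1.trans a2)

theorem cut_mem {S : StarSubalgebra ℂ A} {ρ : C(X, ℝ)} (ht : s.mon (cf ρ) 1 ∈ S) (K : ℕ)
    (hρ : ∀ l : ℕ, l < K → s.π (powComp h (-(l : ℤ)) (cf ρ)) ∈ S) :
    ∀ k : ℕ, k ≤ K → s.mon (theta h ρ K) k ∈ S := by
  induction K with
  | zero =>
    intro k hk
    obtain rfl : k = 0 := by omega
    simp [theta, mon, one_mem]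
  | succ K ih =>
    intro k hk
    have ih' := ih fun l hl => hρ l (by omega)
    rcases Nat.lt_or_ge k (K + 1) with h1 | h1
    · have := mul_mem (hρ K (by omega)) (ih' k (by omega))
      rwa [mon, ← mul_assoc, ← map_mul, mul_comm, ← theta_succ] at this
    · obtain rfl : k = K + 1 := by omega
      have := mul_mem (ih' K le_rfl) ht
      rwa [mon_mul_mon, ← theta_succ, ← Nat.cast_succ] at this

theorem pow_mem' {S : StarSubalgebra ℂ A} {ρ : C(X, ℝ)} (ht : s.mon (cf ρ) 1 ∈ S) (K : ℕ) :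
    s.mon (theta h ρ K) K ∈ S := by
  induction K with
  | zero => simp [theta, mon, one_mem]
  | succ K ih =>
    have := mul_mem ih ht
    rwa [mon_mul_mon, ← theta_succ, ← Nat.cast_succ] at this

theorem cut_mon_mem {S : StarSubalgebra ℂ A} {ρ : C(X, ℝ)} (ht : s.mon (cf ρ) 1 ∈ S) (K : ℕ)
    (hρ : ∀ l : ℕ, l < K → s.π (powComp h (-(l : ℤ)) (cf ρ)) ∈ S) {f : C(X, ℂ)} (hf : s.π f ∈ S)
    {k : ℤ} (hk : |k| ≤ K) : s.π (theta h ρ K) * s.mon f k * s.π (theta h ρ K) ∈ S := by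
  have h0 : s.π (theta h ρ K) ∈ S := by
    have := cut_mem ht K hρ 0 (Nat.zero_le _)
    rwa [Nat.cast_zero, mon_zero] at this
  rw [abs_le] at hk
  rcases le_total 0 k with h1 | h1
  · refine mul_mem ?_ h0
    have := mul_mem hf (cut_mem ht K hρ k.toNat (by omega))
    rw [Int.toNat_of_nonneg h1, mon, ← mul_assoc, ← map_mul, mul_comm f, map_mul, mul_assoc] at this
    exact this
  · rw [mul_assoc]
    refine mul_mem h0 ?_
    have := mul_mem hf (star_mem (cut_mem ht K hρ (-k).toNat (by omega)))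
    rw [Int.toNat_of_nonneg (by omega), mon, star_mul, star_units_zpow s.starU, neg_neg,
      ← map_star, star_theta, ← mul_assoc] at this
    exact this

variable (s) in
/-- the elements which generate the blocks -/
noncomputable def bel (ρ : C(X, ℝ)) (p q : ℕ) : A :=
  s.mon (theta h ρ p) p * star (s.mon (theta h ρ q) q)

theorem ker_bel (ρ : C(X, ℝ)) (p q : ℕ) (x : X) (m n : ℤ) :
    s.ker x m n (s.bel ρ p q) = if m - p = n - q then
      theta h ρ p ((h ^ m) x) * theta h ρ q ((h ^ n) x) else 0 := by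
  rw [bel, star_mon, mon_mul_mon, ker_mon, star_theta]
  by_cases h1 : m - p = n - q
  · rw [if_pos h1, if_pos (by omega), ContinuousMap.mul_apply, powComp_apply, powComp_apply,
      zpow_app, zpow_app]
    congr 4
    omega
  · rw [if_neg h1, if_neg (by omega)]

variable (s) in
/-- the basis of the space of matrices -/
noncomputable def bas (ρ : C(X, ℝ)) {R : ℕ} (q : κ × ι × Fin R × Fin R) : CStarMatrix κ ι A :=
  CStarMatrix.ofMatrix (Matrix.of fun i j =>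
    if i = q.1 ∧ j = q.2.1 then s.bel ρ q.2.2.1 q.2.2.2 else 0)

theorem bas_mem {S : StarSubalgebra ℂ A} {ρ : C(X, ℝ)} (ht : s.mon (cf ρ) 1 ∈ S) {R : ℕ}
    (q : κ × ι × Fin R × Fin R) (i : κ) (j : ι) : s.bas ρ q i j ∈ S := by
  change (if i = q.1 ∧ j = q.2.1 then s.bel ρ q.2.2.1 q.2.2.2 else 0) ∈ S
  split_ifs
  · exact mul_mem (pow_mem' ht _) (star_mem (pow_mem' ht _))
  · exact zero_mem _

theorem exists_bas {ρ : C(X, ℝ)} {R r : ℕ} (hr : r ≤ R) {x : X} (hx : FR h {x | ρ x = 0} r x)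
    {ξ : ι × Fin r → ℂ} (hξ : ξ ≠ 0) (p : κ × Fin r) :
    ∃ (q : κ × ι × Fin R × Fin R) (c : ℂ), c ≠ 0 ∧
      s.blk x r (s.bas ρ q) *ᵥ ξ = c • Pi.single p 1 := by
  classical
  obtain ⟨⟨j₀, n₀⟩, h0, hmax⟩ := Finset.exists_max_image
    (Finset.univ.filter fun q : ι × Fin r => ξ q ≠ 0) (fun q => (q.2 : ℕ)) (by
      obtain ⟨q, hq⟩ := Function.ne_iff.1 hξ
      exact ⟨q, Finset.mem_filter.2 ⟨Finset.mem_univ _, hq⟩⟩)
  obtain ⟨i₀, m₀⟩ := p
  refine ⟨(i₀, j₀, Fin.castLE hr m₀, Fin.castLE hr n₀),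
    theta h ρ m₀ ((h ^ ((m₀ : ℕ) : ℤ)) x) * theta h ρ n₀ ((h ^ ((n₀ : ℕ) : ℤ)) x) * ξ (j₀, n₀),
    mul_ne_zero (mul_ne_zero (theta_ne_zero hx m₀.2 le_rfl) (theta_ne_zero hx n₀.2 le_rfl))
      (Finset.mem_filter.1 h0).2, ?_⟩
  funext ⟨i, m⟩
  have hent : ∀ q : ι × Fin r, s.blk x r (s.bas ρ (i₀, j₀, Fin.castLE hr m₀, Fin.castLE hr n₀))
      (i, m) q = if i = i₀ ∧ q.1 = j₀ then s.ker x (m : ℕ) (q.2 : ℕ) (s.bel ρ m₀ n₀) else 0 := by
    intro q
    rw [blk_apply]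
    change s.ker _ _ _ (if i = i₀ ∧ q.1 = j₀ then s.bel ρ m₀ n₀ else 0) = _
    split_ifs
    · rfl
    · exact map_zero _
  rw [mulVec, dotProduct, Finset.sum_eq_single (j₀, n₀)]
  · rw [hent, ker_bel, Pi.smul_apply, Pi.single_apply, smul_eq_mul]
    by_cases h1 : (i, m) = (i₀, m₀)
    · obtain ⟨rfl, rfl⟩ := Prod.ext_iff.1 h1
      simp
    · rw [if_neg h1, mul_zero]
      split_ifs with h2 h3
      · exact absurd (Prod.ext h2.1 (Fin.ext (by simp only at h3 ⊢; omega))) h1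
      · exact zero_mul _
      · exact zero_mul _
  · rintro ⟨j, n⟩ _ hne
    rw [hent]
    split_ifs with h2
    · by_cases h3 : ξ (j, n) = 0
      · rw [h3, mul_zero]
      · have a1 := hmax (j, n) (Finset.mem_filter.2 ⟨Finset.mem_univ _, h3⟩)
        have a2 : (n : ℕ) ≠ n₀ := fun he => hne (Prod.ext h2.2 (Fin.ext he))
        rw [ker_bel, theta_eq_zero (q := n₀) hx.1.1 (by simp only at a1 ⊢; omega)]
        simp
    · exact zero_mul _
  · simp

theorem rank_le_evalMap {ρ : C(X, ℝ)} {R r : ℕ} (hr : r ≤ R) {x : X} (hx : FR h {x | ρ x = 0} r x)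
    {ξ : ι × Fin r → ℂ} (hξ : ξ ≠ 0) (P : Matrix (κ × Fin r) (κ × Fin r) ℂ) :
    finrank ℂ (LinearMap.ker (evalMap (fun q : κ × ι × Fin R × Fin R =>
      P * s.blk x r (s.bas ρ q)) ξ)) + P.rank ≤ Fintype.card (κ × ι × Fin R × Fin R) := by
  classical
  rw [← finrank_fintype_fun_eq_card ℂ, ← LinearMap.finrank_range_add_finrank_ker
    (evalMap (fun q : κ × ι × Fin R × Fin R => P * s.blk x r (s.bas ρ q)) ξ), add_comm]
  refine Nat.add_le_add_right (Submodule.finrank_mono ?_) _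
  rintro _ ⟨v, rfl⟩
  rw [pi_eq_sum_univ' v, map_sum]
  refine Submodule.sum_mem _ fun p _ => ?_
  rw [map_smul]
  refine Submodule.smul_mem _ _ ?_
  obtain ⟨q, c, hc, hq⟩ := s.exists_bas (κ := κ) hr hx hξ p
  refine ⟨Pi.single q c⁻¹, ?_⟩
  rw [evalMap_apply, Finset.sum_eq_single q]
  · rw [← mulVec_mulVec, hq, Pi.single_eq_same, mulVec_smul, smul_smul, inv_mul_cancel₀ hc,
      one_smul]
    rfl
  · intro q' _ hne
    rw [Pi.single_eq_of_ne hne, zero_smul]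
  · simp

theorem exists_gen {ρ : C(X, ℝ)} {R : ℕ} (hR : Ret h {x | ρ x = 0} R) {a : CStarMatrix ι ι A}
    {b : CStarMatrix κ κ A} (ha : IsSelfAdjoint a) (hb : IsSelfAdjoint b)
    (H : ∀ r : ℕ, ∃ (Λ : Type) (_ : Fintype Λ) (e : X → Λ → ℝ) (d : ℕ),
      (∀ x, FR h {x | ρ x = 0} r x → {l | e x l ≠ 0}.ncard ≤ d ∧
        d + 2 * (Fintype.card ι * r) < 2 * (s.blk x r a⁺).rank + 2 * (s.blk x r b⁺).rank) ∧
      a ∈ matAlg ι (s.lipAlg {x | ρ x = 0} r e) ∧ b ∈ matAlg κ (s.lipAlg {x | ρ x = 0} r e) ∧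
      s.mon (cf ρ) 1 ∈ s.lipAlg {x | ρ x = 0} r e) :
    ∃ w : CStarMatrix κ ι A, (∀ i j, w i j ∈ s.brk {x | ρ x = 0}) ∧
      ∀ r x, FR h {x | ρ x = 0} r x → ∀ ξ, s.blk x r a⁺ *ᵥ ξ = 0 →
        s.blk x r (b⁺ * w) *ᵥ ξ = 0 → ξ = 0 := by
  classical
  set Y : Set X := {x | ρ x = 0} with hY
  choose Λ hΛ e d h1 h2 h3 h4 using H
  let G : ∀ r, X → (κ × ι × Fin R × Fin R) → Matrix (κ × Fin r) (ι × Fin r) ℂ :=
    fun r x q => s.blk x r b⁺ * s.blk x r (s.bas ρ q)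
  have hk : ∀ r x, FR h Y r x → ∀ ξ : ι × Fin r → ℂ, ξ ≠ 0 →
      d r + 2 * (finrank ℂ (LinearMap.ker (s.blk x r a⁺).mulVecLin) +
        finrank ℂ (LinearMap.ker (evalMap (G r x) ξ))) <
        2 * Fintype.card (κ × ι × Fin R × Fin R) := by
    intro r x hx ξ hξ
    have a1 := s.rank_le_evalMap (κ := κ) (hx.le hR) hx hξ (s.blk x r b⁺)
    have a2 := LinearMap.finrank_range_add_finrank_ker (s.blk x r a⁺).mulVecLin
    rw [finrank_fintype_fun_eq_card, Fintype.card_prod, Fintype.card_fin] at a2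
    have a3 := (h1 r x hx).2
    have a4 : (s.blk x r a⁺).rank = finrank ℂ (LinearMap.range (s.blk x r a⁺).mulVecLin) := rfl
    change finrank ℂ (LinearMap.ker (evalMap (G r x) ξ)) + _ ≤ _ at a1
    omega
  rcases Nat.eq_zero_or_pos (Fintype.card (κ × ι × Fin R × Fin R)) with h0 | h0
  · refine ⟨0, fun _ _ => zero_mem _, fun r x hx ξ _ _ => ?_⟩
    by_contra hξ
    have := hk r x hx ξ hξ
    omega
  set N := Fintype.card (κ × ι × Fin R × Fin R) with hN
  obtain ⟨w, hw⟩ := exists_generic (I := κ × ι × Fin R × Fin R) (fun r =>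
    {w | ∃ x ∈ {x | FR h Y r x}, ∃ ξ : ι × Fin r → ℂ, ξ ≠ 0 ∧ s.blk x r a⁺ *ᵥ ξ = 0 ∧
      evalMap (G r x) ξ w = 0}) (2 * N - 1) (by omega) fun r => by
    by_cases hd : d r ≤ 2 * N - 1
    · refine (dimH_bad_le (e r) {x | FR h Y r x} (d r) (fun x hx => (h1 r x hx).1)
        (fun x => s.blk x r a⁺) (G r) (fun k l => (posPart_mem_lip ha (h2 r) k.1 l.1).2 k.2 l.2)
        (fun q k l => ?_) ((2 * N - 1 - d r) / 2) fun x hx ξ hξ => ?_).trans ?_
      · simp only [G, Matrix.mul_apply]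
        exact Lip.sum _ fun p _ => ((posPart_mem_lip hb (h3 r) k.1 p.1).2 k.2 p.2).mul
          ((bas_mem (h4 r) q p.1 l.1).2 p.2 l.2)
      · have := hk r x hx ξ hξ
        omega
      · exact_mod_cast (by omega : d r + 2 * ((2 * N - 1 - d r) / 2) ≤ 2 * N - 1)
    · refine le_trans (le_of_eq ?_) zero_le
      rw [← dimH_empty (X := (κ × ι × Fin R × Fin R) → ℂ)]
      congr 1
      rw [eq_empty_iff_forall_notMem]
      rintro w ⟨x, hx, ξ, hξ, -⟩
      have := hk r x hx ξ hξ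
      omega
  have hm : ∀ i j, (∑ q, w q • s.bas ρ q : CStarMatrix κ ι A) i j ∈ s.brk Y := by
    intro i j
    have : (∑ q, w q • s.bas ρ q : CStarMatrix κ ι A) i j = ∑ q, (w q • s.bas ρ q) i j :=
      Matrix.sum_apply _ _ _ _
    rw [this]
    exact sum_mem fun q _ => SMulMemClass.smul_mem _ (bas_mem (h4 0).1 q i j)
  refine ⟨∑ q, w q • s.bas ρ q, hm, fun r x hx ξ a1 a2 => ?_⟩
  by_contra hξ
  refine hw r ⟨x, hx, ξ, hξ, a1, ?_⟩
  rw [blk_mul hx.1 _ hm, map_sum, Matrix.mul_sum, sum_mulVec] at a2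
  rw [evalMap_apply, ← a2]
  refine Finset.sum_congr rfl fun q _ => ?_
  rw [map_smul, Matrix.mul_smul, smul_mulVec]

end Sys

end Vale.Agent.P093Z
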