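import Mathlib.Analysis.Normed.Module.Basic
import Mathlib.Analysis.Complex.Basic
import Mathlib.Tactic

/-!
# P093, upper bound: bounded functions which are Lipschitz with respect to a parameter
-/

set_option linter.unusedSectionVars false

namespace Vale.Agent.P093Z

variable {J E : Type*} [NormedAddCommGroup E]

/-- on `S` the function `φ` is bounded and Lipschitz with respect to the parameter `e` -/
def Lip (e : J → E) (S : Set J) {V : Type*} [NormedAddCommGroup V] (φ : J → V) : Prop :=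
  ∃ C : ℝ, 0 ≤ C ∧ (∀ x ∈ S, ‖φ x‖ ≤ C) ∧ ∀ x ∈ S, ∀ y ∈ S, ‖φ x - φ y‖ ≤ C * ‖e x - e y‖

variable {e : J → E} {S : Set J} {V V' : Type*} [NormedAddCommGroup V] [NormedAddCommGroup V']

theorem Lip.of {φ : J → V} (B C : ℝ) (h1 : ∀ x ∈ S, ‖φ x‖ ≤ B)
    (h2 : ∀ x ∈ S, ∀ y ∈ S, ‖φ x - φ y‖ ≤ C * ‖e x - e y‖) : Lip e S φ := by
  refine ⟨max 0 (max B C), le_max_left _ _, fun x hx => (h1 x hx).trans
    ((le_max_left _ _).trans (le_max_right _ _)), fun x hx y hy => (h2 x hx y hy).trans ?_⟩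
  exact mul_le_mul_of_nonneg_right ((le_max_right _ _).trans (le_max_right _ _)) (norm_nonneg _)

theorem Lip.congr {φ ψ : J → V} (h : Lip e S φ) (hψ : ∀ x ∈ S, ψ x = φ x) : Lip e S ψ := by
  obtain ⟨C, h0, h1, h2⟩ := h
  refine ⟨C, h0, fun x hx => by rw [hψ x hx]; exact h1 x hx, fun x hx y hy => ?_⟩
  rw [hψ x hx, hψ y hy]
  exact h2 x hx y hy

theorem Lip.mono {φ : J → V} {S' : Set J} (h : Lip e S φ) (hS : S' ⊆ S) : Lip e S' φ := by
  obtain ⟨C, h0, h1, h2⟩ := h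
  exact ⟨C, h0, fun x hx => h1 x (hS hx), fun x hx y hy => h2 x (hS hx) y (hS hy)⟩

theorem Lip.const (v : V) : Lip e S (fun _ => v) :=
  Lip.of ‖v‖ 0 (fun _ _ => le_rfl) fun _ _ _ _ => by simp

theorem Lip.add {φ ψ : J → V} (h : Lip e S φ) (h' : Lip e S ψ) : Lip e S (fun x => φ x + ψ x) := by
  obtain ⟨C, -, h1, h2⟩ := h
  obtain ⟨C', -, h1', h2'⟩ := h'
  refine Lip.of (C + C') (C + C') (fun x hx => (norm_add_le _ _).trans
    (add_le_add (h1 x hx) (h1' x hx))) fun x hx y hy => ?_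
  have e1 : φ x + ψ x - (φ y + ψ y) = (φ x - φ y) + (ψ x - ψ y) := by abel
  rw [e1, add_mul]
  exact (norm_add_le _ _).trans (add_le_add (h2 x hx y hy) (h2' x hx y hy))

/-- composition with a Lipschitz map -/
theorem Lip.comp {φ : J → V} (h : Lip e S φ) {g : V → V'} (K : ℝ) (hK : 0 ≤ K)
    (hg : ∀ v w, ‖g v - g w‖ ≤ K * ‖v - w‖) : Lip e S (fun x => g (φ x)) := by
  obtain ⟨C, -, h1, h2⟩ := h
  refine Lip.of (‖g 0‖ + K * C) (K * C) (fun x hx => ?_) fun x hx y hy => ?_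
  · have a1 := hg (φ x) 0
    rw [sub_zero] at a1
    have a2 : ‖g (φ x)‖ ≤ ‖g 0‖ + ‖g (φ x) - g 0‖ := norm_le_insert' _ _
    have a3 := mul_le_mul_of_nonneg_left (h1 x hx) hK
    linarith
  · refine (hg _ _).trans ?_
    rw [mul_assoc]
    exact mul_le_mul_of_nonneg_left (h2 x hx y hy) hK

theorem Lip.neg {φ : J → V} (h : Lip e S φ) : Lip e S (fun x => -φ x) :=
  h.comp (g := fun v => -v) 1 zero_le_one fun v w => by
    rw [one_mul, neg_sub_neg, norm_sub_rev]

theorem Lip.sub {φ ψ : J → V} (h : Lip e S φ) (h' : Lip e S ψ) :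
    Lip e S (fun x => φ x - ψ x) :=
  (h.add h'.neg).congr fun _ _ => sub_eq_add_neg _ _

theorem Lip.sum {κ : Type*} (s : Finset κ) {φ : κ → J → V} (h : ∀ k ∈ s, Lip e S (φ k)) :
    Lip e S (fun x => ∑ k ∈ s, φ k x) := by
  classical
  induction s using Finset.induction_on with
  | empty => simpa using Lip.const (0 : V)
  | insert a s ha ih =>
    refine ((h a (Finset.mem_insert_self _ _)).add
      (ih fun k hk => h k (Finset.mem_insert_of_mem hk))).congr fun x _ => ?_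
    rw [Finset.sum_insert ha]

theorem Lip.mul {R : Type*} [NormedRing R] {φ ψ : J → R} (h : Lip e S φ) (h' : Lip e S ψ) :
    Lip e S (fun x => φ x * ψ x) := by
  obtain ⟨C, h0, h1, h2⟩ := h
  obtain ⟨C', h0', h1', h2'⟩ := h'
  refine Lip.of (C * C') (C * C' + C * C') (fun x hx => (norm_mul_le _ _).trans
    (mul_le_mul (h1 x hx) (h1' x hx) (norm_nonneg _) h0)) fun x hx y hy => ?_
  have e1 : φ x * ψ x - φ y * ψ y = φ x * (ψ x - ψ y) + (φ x - φ y) * ψ y := by noncomm_ring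
  rw [e1]
  refine (norm_add_le _ _).trans ?_
  have a1 : ‖φ x * (ψ x - ψ y)‖ ≤ C * (C' * ‖e x - e y‖) := (norm_mul_le _ _).trans
    (mul_le_mul (h1 x hx) (h2' x hx y hy) (norm_nonneg _) h0)
  have a2 : ‖(φ x - φ y) * ψ y‖ ≤ C * ‖e x - e y‖ * C' := (norm_mul_le _ _).trans
    (mul_le_mul (h2 x hx y hy) (h1' y hy) (norm_nonneg _) (by positivity))
  nlinarith

theorem Lip.prod {R : Type*} [NormedCommRing R] [NormOneClass R] {κ : Type*} (s : Finset κ)
    {φ : κ → J → R} (h : ∀ k ∈ s, Lip e S (φ k)) : Lip e S (fun x => ∏ k ∈ s, φ k x) := by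
  classical
  induction s using Finset.induction_on with
  | empty => simpa using Lip.const (1 : R)
  | insert a s ha ih =>
    refine ((h a (Finset.mem_insert_self _ _)).mul
      (ih fun k hk => h k (Finset.mem_insert_of_mem hk))).congr fun x _ => ?_
    rw [Finset.prod_insert ha]

theorem Lip.ofReal {φ : J → ℝ} (h : Lip e S φ) : Lip e S (fun x => (φ x : ℂ)) :=
  h.comp (g := fun t : ℝ => (t : ℂ)) 1 zero_le_one fun v w => by
    rw [one_mul, ← Complex.ofReal_sub, Complex.norm_real]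

theorem Lip.star {φ : J → ℂ} (h : Lip e S φ) : Lip e S (fun x => star (φ x)) :=
  h.comp (g := fun t : ℂ => Star.star t) 1 zero_le_one fun v w => by
    rw [one_mul, ← star_sub, norm_star]

theorem Lip.inv {φ : J → ℝ} (h : Lip e S φ) {c : ℝ} (hc : 0 < c) (hφ : ∀ x ∈ S, c ≤ φ x) :
    Lip e S (fun x => (φ x)⁻¹) := by
  obtain ⟨C, h0, -, h2⟩ := h
  refine Lip.of c⁻¹ (c⁻¹ * c⁻¹ * C) (fun x hx => ?_) fun x hx y hy => ?_
  · rw [Real.norm_eq_abs, abs_of_pos (inv_pos.2 (hc.trans_le (hφ x hx)))]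
    exact inv_anti₀ hc (hφ x hx)
  · have a1 := hc.trans_le (hφ x hx)
    have a2 := hc.trans_le (hφ y hy)
    have e1 : (φ x)⁻¹ - (φ y)⁻¹ = (φ x)⁻¹ * (φ y)⁻¹ * (φ y - φ x) := by field_simp
    rw [e1, norm_mul, norm_sub_rev, Real.norm_eq_abs, abs_of_pos (by positivity), mul_assoc _ C]
    refine mul_le_mul (mul_le_mul (inv_anti₀ hc (hφ x hx)) (inv_anti₀ hc (hφ y hy))
      (by positivity) (by positivity)) (h2 x hx y hy) (norm_nonneg _) (by positivity)

theorem Lip.pi {κ : Type*} [Fintype κ] {W : κ → Type*} [∀ k, NormedAddCommGroup (W k)]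
    {φ : J → ∀ k, W k} (h : ∀ k, Lip e S (fun x => φ x k)) : Lip e S φ := by
  choose C h0 h1 h2 using h
  have hs : ∀ k, C k ≤ ∑ k, C k := fun k =>
    Finset.single_le_sum (f := C) (fun k _ => h0 k) (Finset.mem_univ k)
  have hs0 : 0 ≤ ∑ k, C k := Finset.sum_nonneg fun k _ => h0 k
  refine ⟨∑ k, C k, hs0, fun x hx => ?_, fun x hx y hy => ?_⟩
  · exact (pi_norm_le_iff_of_nonneg hs0).2 fun k => (h1 k x hx).trans (hs k)
  · refine (pi_norm_le_iff_of_nonneg (by positivity)).2 fun k => (h2 k x hx y hy).trans ?_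
    exact mul_le_mul_of_nonneg_right (hs k) (norm_nonneg _)

theorem Lip.prodMk {φ : J → V} {ψ : J → V'} (h : Lip e S φ) (h' : Lip e S ψ) :
    Lip e S (fun x => (φ x, ψ x)) := by
  obtain ⟨C, h0, h1, h2⟩ := h
  obtain ⟨C', h0', h1', h2'⟩ := h'
  refine Lip.of (C + C') (C + C') (fun x hx => ?_) fun x hx y hy => ?_
  · rw [Prod.norm_def]
    exact max_le (by linarith [h1 x hx]) (by linarith [h1' x hx])
  · rw [Prod.norm_def]
    have a1 := h2 x hx y hy
    have a2 := h2' x hx y hy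
    have a3 : 0 ≤ C * ‖e x - e y‖ := by positivity
    have a4 : 0 ≤ C' * ‖e x - e y‖ := by positivity
    refine max_le ?_ ?_
    · change ‖φ x - φ y‖ ≤ _
      linarith
    · change ‖ψ x - ψ y‖ ≤ _
      linarith

/-- a bounded coordinate of the parameter -/
theorem Lip.coord {Λ : Type*} [Fintype Λ] {e : J → Λ → ℝ} (l : Λ) (B : ℝ)
    (hB : ∀ x ∈ S, |e x l| ≤ B) : Lip e S (fun x => e x l) :=
  Lip.of B 1 hB fun x _ y _ => by
    rw [one_mul]
    exact norm_le_pi_norm (e x - e y) l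

end Vale.Agent.P093Z
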