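import Vale.Agent.P093Z.Count
import Vale.Agent.P093Z.Lip
import Vale.Agent.P093.U.Main

/-!
# P093, upper bound: the parametrisation of the blocks

`exists_param` : finitely many functions are approximated by functions whose values along a first
return block of length `r` are Lipschitz functions of a vector with at most `μ r` nonzero
coordinates, `μ > mdim`.
-/

set_option linter.unusedSectionVars false

open Set Filter Topology Vale.Agent.P093
open scoped ENNReal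

namespace Vale.Agent.P093Z

variable {X : Type*} [TopologicalSpace X] [CompactSpace X] {h : X ≃ₜ X}

theorem exists_small_cover {F : Type*} [Fintype F] (f : F → C(X, ℂ)) {η : ℝ} (hη : 0 < η) :
    ∃ U : Set (Set X), IsFinOpenCover U ∧ ∀ V ∈ U, ∀ y ∈ V, ∀ z ∈ V, ∀ i, ‖f i y - f i z‖ ≤ η := by
  let Φ : X → F → ℂ := fun x i => f i x
  have hΦ : Continuous Φ := continuous_pi fun i => (f i).continuous
  obtain ⟨t, ht⟩ := isCompact_univ.elim_finite_subcover
    (fun x => Φ ⁻¹' Metric.ball (Φ x) (η / 2)) (fun x => Metric.isOpen_ball.preimage hΦ)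
    fun x _ => mem_iUnion.2 ⟨x, Metric.mem_ball_self (by positivity)⟩
  refine ⟨(fun x => Φ ⁻¹' Metric.ball (Φ x) (η / 2)) '' t, ⟨t.finite_toSet.image _, ?_, ?_⟩, ?_⟩
  · rintro _ ⟨x, -, rfl⟩
    exact Metric.isOpen_ball.preimage hΦ
  · rw [sUnion_image]
    exact eq_univ_of_univ_subset ht
  · rintro _ ⟨x, -, rfl⟩ y hy z hz i
    have h1 : dist (Φ y) (Φ z) < η := by
      have := dist_triangle_right (Φ y) (Φ z) (Φ x)
      have a1 : dist (Φ y) (Φ x) < η / 2 := hy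
      have a2 : dist (Φ z) (Φ x) < η / 2 := hz
      linarith
    rw [← dist_eq_norm]
    exact ((dist_le_pi_dist (Φ y) (Φ z) i).trans h1.le)

theorem exists_window {μ : ℝ} (hμ : meanDim h < ENNReal.ofReal μ) {U : Set (Set X)}
    (hU : IsFinOpenCover U) : ∃ M T : ℕ, 0 < T ∧
      ((coverDim (iterCover h U (M + 1)) : ℝ) + 1) * (T + 1) < μ * (M * T + 1) := by
  obtain ⟨μ', h0, h1, h2⟩ := ENNReal.lt_iff_exists_real_btwn.1 hμ
  have h3 : μ' < μ := (ENNReal.ofReal_lt_ofReal_iff_of_nonneg h0).1 h2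
  have h4 : limsup (fun N : ℕ => (coverDim (iterCover h U N) : ℝ≥0∞) / N) atTop <
      ENNReal.ofReal μ' :=
    (le_iSup (fun 𝒰 : {𝒰 : Set (Set X) // IsFinOpenCover 𝒰} =>
      limsup (fun N : ℕ => (coverDim (iterCover h 𝒰.1 N) : ℝ≥0∞) / N) atTop) ⟨U, hU⟩).trans_lt h1
  obtain ⟨N₀, hN₀⟩ := eventually_atTop.1 (eventually_lt_of_limsup_lt h4)
  set γ : ℝ := (μ - μ') / 2 with hγ
  have hγ0 : 0 < γ := by linarith
  obtain ⟨M₀, hM₀⟩ := exists_nat_ge ((μ' + 1) / γ)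
  obtain ⟨T₀, hT₀⟩ := exists_nat_ge ((μ' + γ) / γ)
  refine ⟨max N₀ M₀, T₀ + 1, by omega, ?_⟩
  set M := max N₀ M₀ with hM
  have a1 := hN₀ (M + 1) (by omega)
  rw [ENNReal.div_lt_iff (Or.inl (by simp)) (Or.inl (by simp)), ← ENNReal.ofReal_natCast,
    ← ENNReal.ofReal_natCast, ← ENNReal.ofReal_mul h0,
    ENNReal.ofReal_lt_ofReal_iff_of_nonneg (Nat.cast_nonneg _)] at a1
  push_cast at a1 ⊢
  have a2 : (M₀ : ℝ) ≤ M := by exact_mod_cast le_max_right N₀ M₀
  rw [div_le_iff₀ hγ0] at hM₀ hT₀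
  set D : ℝ := ((coverDim (iterCover h U (M + 1)) : ℕ) : ℝ)
  have hM0 : (0 : ℝ) ≤ M := Nat.cast_nonneg _
  have hT0 : (0 : ℝ) ≤ T₀ := Nat.cast_nonneg _
  have a3 : D + 1 ≤ (μ' + γ) * M := by nlinarith
  have a4 : (μ' + γ) * (T₀ + 1 + 1) ≤ μ * (T₀ + 1) := by nlinarith
  have a5 : (D + 1) * (T₀ + 1 + 1) ≤ (μ' + γ) * M * (T₀ + 1 + 1) :=
    mul_le_mul_of_nonneg_right a3 (by positivity)
  have a6 := mul_le_mul_of_nonneg_left a4 hM0
  nlinarith

/-- weights for a window -/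
theorem exists_weights [T2Space X] [Nonempty X] {U : Set (Set X)} (hU : IsFinOpenCover U) (N : ℕ) :
    ∃ (ι : Type) (_ : Fintype ι) (w : ι → C(X, ℝ)) (y : ι → X), (∀ i z, 0 ≤ w i z) ∧
      (∀ z, ∑ i, w i z = 1) ∧ (∀ z, {i | w i z ≠ 0}.ncard ≤ coverDim (iterCover h U N) + 1) ∧
      ∀ i z, w i z ≠ 0 → ∀ s : ℕ, s < N → ∃ V ∈ U, (h ^ (s : ℤ)) z ∈ V ∧ (h ^ (s : ℤ)) (y i) ∈ V := by
  obtain ⟨ι, _, w, h1, h2, h3, h4, h5⟩ :=
    P093.U.smallOn_of_coverDim (P093.U.isFinOpenCover_iterCover h hU N)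
  have h6 : ∀ i, ∃ y : X, (∃ z, w i z ≠ 0) → w i y ≠ 0 := by
    intro i
    by_cases hi : ∃ z, w i z ≠ 0
    · exact ⟨hi.choose, fun _ => hi.choose_spec⟩
    · exact ⟨Classical.arbitrary X, fun h => absurd h hi⟩
  choose y hy using h6
  refine ⟨ι, inferInstance, fun i => ⟨w i, continuousOn_univ.1 (h1 i)⟩, y,
    fun i z => h2 i z trivial, fun z => h3 z trivial, fun z => h5 z trivial, fun i z hz s hs => ?_⟩
  obtain ⟨V, ⟨g, hg, rfl⟩, hV⟩ := h4 i
  have a1 := hV z trivial hz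
  have a2 := hV (y i) trivial (hy i ⟨z, hz⟩)
  simp only [mem_iInter, Finset.mem_range, mem_preimage, id] at a1 a2
  rw [zpow_natCast]
  exact ⟨g s, hg s, a1 s hs, a2 s hs⟩

namespace Mark

variable {L : ℕ} (m : Mark h L) {ι : Type} [Fintype ι] (w : ι → C(X, ℝ)) (y : ι → X) (T M : ℕ)

/-- the normalisation -/
noncomputable def den (z : X) : ℝ :=
  ∑ s ∈ Finset.range (M + 1), psi T (M * T + 1) (T * (m.n z - s))

/-- the approximation of `f` -/
noncomputable def app (hT : 0 < T) (f : C(X, ℂ)) : C(X, ℂ) where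
  toFun z := (((m.den T M z)⁻¹ : ℝ) : ℂ) * ∑ s ∈ Finset.range (M + 1), ∑ i,
    ((psi T (M * T + 1) (T * (m.n z - s)) * w i ((h ^ (-(s : ℤ))) z) : ℝ) : ℂ) *
      f ((h ^ (s : ℤ)) (y i))
  continuous_toFun := by
    have h1 : ∀ s : ℕ, Continuous fun z => psi T (M * T + 1) (T * (m.n z - s)) := fun s =>
      (continuous_psi _ _).comp (by fun_prop)
    refine Continuous.mul (Complex.continuous_ofReal.comp (Continuous.inv₀
      (continuous_finsetSum _ fun s _ => h1 s) fun z => ?_))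
      (continuous_finsetSum _ fun s _ => continuous_finsetSum _ fun i _ =>
        (Complex.continuous_ofReal.comp ((h1 s).mul
          ((w i).continuous.comp (h ^ (-(s : ℤ))).continuous))).mul continuous_const)
    exact (lt_of_lt_of_le (by norm_num) (den_ge hT M (m.n z))).ne'

theorem app_near (hT : 0 < T) (f : C(X, ℂ)) {η : ℝ} (hη : 0 ≤ η) (hw0 : ∀ i z, 0 ≤ w i z)
    (hw1 : ∀ z, ∑ i, w i z = 1)
    (hf : ∀ i z, w i z ≠ 0 → ∀ s : ℕ, s < M + 1 →
      ‖f ((h ^ (s : ℤ)) (y i)) - f ((h ^ (s : ℤ)) z)‖ ≤ η) : ‖m.app w y T M hT f - f‖ ≤ η := by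
  refine (ContinuousMap.norm_le _ hη).2 fun z => ?_
  have hd : 0 < m.den T M z := lt_of_lt_of_le (by norm_num) (den_ge hT M (m.n z))
  set c : ℕ → ι → ℝ := fun s i =>
    psi T (M * T + 1) (T * (m.n z - s)) * w i ((h ^ (-(s : ℤ))) z) with hc
  have hc0 : ∀ s i, 0 ≤ c s i := fun s i => mul_nonneg (psi_nonneg _ _ _) (hw0 _ _)
  have hsum : ∑ s ∈ Finset.range (M + 1), ∑ i, c s i = m.den T M z := by
    refine Finset.sum_congr rfl fun s _ => ?_
    simp only [hc]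
    rw [← Finset.mul_sum, hw1, mul_one]
  have e1 : (m.app w y T M hT f - f) z = (((m.den T M z)⁻¹ : ℝ) : ℂ) *
      ∑ s ∈ Finset.range (M + 1), ∑ i, (c s i : ℂ) * (f ((h ^ (s : ℤ)) (y i)) - f z) := by
    simp only [mul_sub, Finset.sum_sub_distrib, ← Finset.sum_mul]
    rw [ContinuousMap.sub_apply]
    congr 1
    have : (∑ s ∈ Finset.range (M + 1), ∑ i, (c s i : ℂ)) = (m.den T M z : ℂ) := by
      rw [← hsum]
      push_cast
      rfl
    rw [this, ← mul_assoc, ← Complex.ofReal_mul, inv_mul_cancel₀ hd.ne']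
    simp
  rw [e1, norm_mul, Complex.norm_real, Real.norm_eq_abs, abs_of_pos (inv_pos.2 hd),
    inv_mul_le_iff₀ hd, ← hsum, Finset.sum_mul]
  refine (norm_sum_le _ _).trans (Finset.sum_le_sum fun s hs => ?_)
  rw [Finset.sum_mul]
  refine (norm_sum_le _ _).trans (Finset.sum_le_sum fun i _ => ?_)
  rw [norm_mul, Complex.norm_real, Real.norm_eq_abs, abs_of_nonneg (hc0 s i)]
  by_cases h0 : w i ((h ^ (-(s : ℤ))) z) = 0
  · have : c s i = 0 := by simp only [hc, h0, mul_zero]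
    rw [this, zero_mul, zero_mul]
  · have := hf i _ h0 s (Finset.mem_range.1 hs)
    rw [zpow_app, add_neg_cancel, zpow_zero] at this
    exact mul_le_mul_of_nonneg_left this (hc0 s i)

open scoped Classical in
/-- the parameters of a block -/
noncomputable def par (P r : ℕ) (x : X) (q : Finset.Ico (-(P : ℤ)) (r + P) × Option ι) : ℝ :=
  match q.2 with
  | none => 1 - m.ρ ((h ^ (q.1 : ℤ)) x)
  | some i => if (-(M : ℤ) ≤ q.1 ∧ (q.1 : ℤ) < r) ∧ m.Bad T M ((h ^ (q.1 : ℤ)) x) then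
      w i ((h ^ (q.1 : ℤ)) x) else 0

theorem lip_rho (P r : ℕ) (S : Set X) {l : ℤ} (h1 : -(P : ℤ) ≤ l) (h2 : l < r + P) :
    Lip (m.par w T M P r) S fun x => m.ρ ((h ^ l) x) := by
  have a1 := Lip.coord (e := m.par w T M P r) (S := S) (⟨l, Finset.mem_Ico.2 ⟨h1, h2⟩⟩, none) 1
    fun x _ => by
      change |1 - m.ρ ((h ^ l) x)| ≤ 1
      rw [abs_le]
      constructor <;> linarith [m.nonneg ((h ^ l) x), m.le_one ((h ^ l) x)]
  refine ((Lip.const (1 : ℝ)).sub a1).congr fun x _ => ?_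
  change _ = 1 - (1 - m.ρ ((h ^ l) x))
  ring

theorem lip_n (P r : ℕ) (j : ℕ) (hj : j < r) :
    Lip (m.par w T M P r) {x | FR h {x | m.ρ x = 0} r x} fun x => m.n ((h ^ (j : ℤ)) x) := by
  induction j with
  | zero =>
    refine (Lip.const (0 : ℝ)).congr fun x hx => ?_
    have h1 := m.step (h.symm x)
    have h2 : m.ρ x = 0 := hx.1.1
    rw [h.apply_symm_apply, h2, zero_mul] at h1
    simpa using h1
  | succ j ih =>
    refine ((m.lip_rho w T M P r _ (l := (j : ℤ) + 1) (by omega) (by omega)).mul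
      ((ih (by omega)).add (Lip.const (1 : ℝ)))).congr fun x _ => ?_
    rw [Nat.cast_succ, app_succ, m.step]

theorem lip_app (hT : 0 < T) (f : C(X, ℂ)) (hw0 : ∀ i z, 0 ≤ w i z) (hw1 : ∀ z, ∑ i, w i z = 1)
    (P r : ℕ) (hP : M ≤ P) (j : ℕ) (hj : j < r) :
    Lip (m.par w T M P r) {x | FR h {x | m.ρ x = 0} r x}
      fun x => m.app w y T M hT f ((h ^ (j : ℤ)) x) := by
  have h1 : ∀ s : ℕ, Lip (m.par w T M P r) {x | FR h {x | m.ρ x = 0} r x}
      fun x => psi T (M * T + 1) (T * (m.n ((h ^ (j : ℤ)) x) - s)) := fun s =>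
    ((Lip.const (T : ℝ)).mul ((m.lip_n w T M P r j hj).sub (Lip.const (s : ℝ)))).comp 1
      zero_le_one (psi_lip _ _)
  refine ((Lip.sum _ fun s _ => h1 s).inv (c := 1 / 2) (by norm_num)
    fun x _ => den_ge hT M _).ofReal.mul (Lip.sum _ fun s hs => Lip.sum _ fun i _ =>
      Lip.mul (Lip.ofReal ?_) (Lip.const _))
  have hs' := Finset.mem_range.1 hs
  have a1 := Lip.coord (e := m.par w T M P r) (S := {x | FR h {x | m.ρ x = 0} r x})
    (⟨-(s : ℤ) + j, Finset.mem_Ico.2 ⟨by omega, by omega⟩⟩, some i) 1 fun x _ => by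
      simp only [par]
      split_ifs
      · rw [abs_of_nonneg (hw0 _ _), ← hw1 ((h ^ (-(s : ℤ) + j)) x)]
        exact Finset.single_le_sum (f := fun i => w i ((h ^ (-(s : ℤ) + j)) x))
          (fun i _ => hw0 i _) (Finset.mem_univ i)
      · simp
  refine ((h1 s).mul a1).congr fun x _ => ?_
  by_cases h0 : psi T (M * T + 1) (T * (m.n ((h ^ (j : ℤ)) x) - s)) = 0
  · rw [h0, zero_mul, zero_mul]
  · have hb : m.Bad T M ((h ^ (-(s : ℤ) + j)) x) := by
      refine m.bad_of_psi (s := s) (by omega) ?_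
      rwa [zpow_app, add_neg_cancel_left]
    simp only [par]
    rw [if_pos ⟨⟨by omega, by omega⟩, hb⟩, zpow_app]

open scoped Classical in
theorem par_card {D : ℕ} (hD : ∀ z, {i | w i z ≠ 0}.ncard ≤ D) (P r : ℕ) (x : X) :
    {q | m.par w T M P r x q ≠ 0}.ncard ≤ (m.irr x (-(P : ℤ)) (r + P)).card +
      D * ((Finset.Ico (-(M : ℤ)) r).filter fun i => m.Bad T M ((h ^ i) x)).card := by
  set B := (Finset.Ico (-(M : ℤ)) r).filter fun i => m.Bad T M ((h ^ i) x) with hB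
  let G : Finset (ℤ × Option ι) := (m.irr x (-(P : ℤ)) (r + P)).image (fun l => (l, none)) ∪
    B.biUnion fun l => (Finset.univ.filter fun i => w i ((h ^ l) x) ≠ 0).image fun i => (l, some i)
  have h1 : {q | m.par w T M P r x q ≠ 0}.ncard ≤ (G : Set (ℤ × Option ι)).ncard := by
    refine Set.ncard_le_ncard_of_injOn (fun q => (q.1.1, q.2)) ?_ ?_ G.finite_toSet
    · rintro ⟨⟨l, hl⟩, _ | i⟩ hq
      · refine Finset.mem_coe.2 (Finset.mem_union_left _ (Finset.mem_image_of_mem _ ?_))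
        refine m.mem_irr.2 ⟨Finset.mem_Ico.1 hl, fun h1 => hq ?_⟩
        change 1 - m.ρ ((h ^ l) x) = 0
        rw [h1, sub_self]
      · simp only [mem_ofPred_eq, par, ne_eq, ite_eq_right_iff, Classical.not_imp] at hq
        refine Finset.mem_coe.2 (Finset.mem_union_right _ (Finset.mem_biUnion.2 ⟨l, ?_, ?_⟩))
        · exact Finset.mem_filter.2 ⟨Finset.mem_Ico.2 hq.1.1, hq.1.2⟩
        · exact Finset.mem_image_of_mem _ (Finset.mem_filter.2 ⟨Finset.mem_univ _, hq.2⟩)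
    · intro q _ q' _ he
      have he' := Prod.ext_iff.1 he
      exact Prod.ext (Subtype.ext he'.1) he'.2
  rw [Set.ncard_coe_finset] at h1
  refine h1.trans ((Finset.card_union_le _ _).trans (Nat.add_le_add Finset.card_image_le ?_))
  refine Finset.card_biUnion_le.trans ?_
  rw [mul_comm, ← smul_eq_mul, ← Finset.sum_const]
  refine Finset.sum_le_sum fun l _ => Finset.card_image_le.trans ?_
  have := hD ((h ^ l) x)
  rwa [Set.ncard_eq_toFinset_card', Set.toFinset_ofPred] at this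

end Mark

theorem exists_param [T2Space X] [Infinite X] (hmin : IsMinimalHomeo h) {μ : ℝ}
    (hμ : meanDim h < ENNReal.ofReal μ) {F : Type*} [Fintype F] (f : F → C(X, ℂ)) {η : ℝ}
    (hη : 0 < η) (K N₀ : ℕ) {θ : ℝ} (hθ : 0 < θ) :
    ∃ (ρ : C(X, ℝ)) (R : ℕ) (g : F → C(X, ℂ)), (∀ x, 0 ≤ ρ x ∧ ρ x ≤ 1) ∧
      Ret h {x | ρ x = 0} R ∧ (∀ i, ‖g i - f i‖ ≤ η) ∧ ∀ r : ℕ,
      (∀ x, FR h {x | ρ x = 0} r x → N₀ ≤ r ∧
        ∃ B : Finset (Fin r), (B.card : ℝ) ≤ θ * r ∧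
          ∀ j ∉ B, ∀ l : ℤ, |l - (j : ℕ)| ≤ K → ρ ((h ^ l) x) = 1) ∧
      ∃ (Λ : Type) (_ : Fintype Λ) (e : X → Λ → ℝ),
        (∀ x, FR h {x | ρ x = 0} r x → ({l | e x l ≠ 0}.ncard : ℝ) ≤ μ * r) ∧
        (∀ l : ℤ, -(K : ℤ) ≤ l → l < r →
          Lip e {x | FR h {x | ρ x = 0} r x} fun x => ρ ((h ^ l) x)) ∧
        ∀ i (j : ℕ), j < r → Lip e {x | FR h {x | ρ x = 0} r x} fun x => g i ((h ^ (j : ℤ)) x) := by
  classical
  obtain ⟨U, hU, hUf⟩ := exists_small_cover f hη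
  obtain ⟨M, T, hT, hMT⟩ := exists_window hμ hU
  obtain ⟨ι, _, w, y, hw0, hw1, hD, hy⟩ := exists_weights (h := h) hU (M + 1)
  set D : ℕ := coverDim (iterCover h U (M + 1)) + 1 with hDdef
  set Q : ℕ := M * T + 1 with hQ
  have hQ0 : (0 : ℝ) < Q := by positivity
  set P : ℕ := K + M + Q with hP
  set γ : ℝ := μ - D * (T + 1) / Q with hγ
  have hγ0 : 0 < γ := by
    rw [hγ, sub_pos, div_lt_iff₀ hQ0, hDdef, hQ]
    push_cast
    exact hMT
  set C : ℝ := 4 + D * (4 * (2 * M + 1 + Q) + (T + 1) * (M + 1)) with hC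
  obtain ⟨L₁, hL₁⟩ := exists_nat_ge (C / γ)
  obtain ⟨L₂, hL₂⟩ := exists_nat_ge (4 * (2 * K + 1) / θ)
  set L : ℕ := L₁ + L₂ + P + N₀ + 1 with hL
  have hL0 : (0 : ℝ) < L := by positivity
  have hL1 : C ≤ γ * L := by
    rw [div_le_iff₀ hγ0] at hL₁
    have : (L₁ : ℝ) ≤ L := by exact_mod_cast (by omega : L₁ ≤ L)
    nlinarith
  have hL2 : 4 * (2 * K + 1) ≤ θ * L := by
    rw [div_le_iff₀ hθ] at hL₂
    have : (L₂ : ℝ) ≤ L := by exact_mod_cast (by omega : L₂ ≤ L)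
    nlinarith
  obtain ⟨m⟩ := exists_mark hmin L
  have hI : ∀ r x, FR h {x | m.ρ x = 0} r x →
      (L : ℝ) * (m.irr x (-(P : ℤ)) (r + P)).card ≤ 4 * r := by
    intro r x hx
    have a1 := m.le_of_FR hx
    have a2 := m.irr_card (by omega) x (-(P : ℤ)) (r + 2 * P)
    have e1 : -(P : ℤ) + (r + 2 * P : ℕ) = r + P := by push_cast; ring
    rw [e1] at a2
    have a3 : L * (m.irr x (-(P : ℤ)) (r + P)).card ≤ 4 * r := by omega
    exact_mod_cast a3
  refine ⟨m.ρ, m.R, fun i => m.app w y T M hT (f i), fun x => ⟨m.nonneg x, m.le_one x⟩, m.ret,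
    fun i => m.app_near w y T M hT (f i) hη.le hw0 hw1 fun k z hz s hs => ?_, fun r =>
    ⟨fun x hx => ⟨by have := m.le_of_FR hx; omega, ?_⟩, _, inferInstance, m.par w T M P r,
      fun x hx => ?_, fun l h1 h2 => m.lip_rho w T M P r _ (by omega) (by omega),
      fun i j hj => m.lip_app w y T M hT (f i) hw0 hw1 P r (by omega) j hj⟩⟩
  · obtain ⟨V, hV, h1, h2⟩ := hy k z hz s hs
    exact hUf V hV _ h2 _ h1 i
  · let B : Finset (Fin r) := Finset.univ.filter fun j =>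
      ∃ l : ℤ, |l - (j : ℕ)| ≤ K ∧ m.ρ ((h ^ l) x) ≠ 1
    refine ⟨B, ?_, fun j hj l hl => ?_⟩
    · have a1 := card_near (B.image fun j : Fin r => ((j : ℕ) : ℤ)) (m.irr x (-(P : ℤ)) (r + P)) K
        fun i hi => by
          obtain ⟨j, hj, rfl⟩ := Finset.mem_image.1 hi
          obtain ⟨l, h1, h2⟩ := (Finset.mem_filter.1 hj).2
          have := j.2
          have h3 := abs_le.1 h1
          exact ⟨l, m.mem_irr.2 ⟨⟨by omega, by omega⟩, h2⟩, h1⟩
      rw [Finset.card_image_of_injective _ fun j j' he => Fin.ext (by exact_mod_cast he)] at a1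
      have a2 : (B.card : ℝ) ≤ (2 * K + 1) * (m.irr x (-(P : ℤ)) (r + P)).card := by
        exact_mod_cast a1
      have a3 := hI r x hx
      refine le_of_mul_le_mul_left ?_ hL0
      have a4 := mul_le_mul_of_nonneg_left a2 hL0.le
      have a5 := mul_le_mul_of_nonneg_left a3 (by positivity : (0 : ℝ) ≤ 2 * K + 1)
      have a6 := mul_le_mul_of_nonneg_right hL2 (Nat.cast_nonneg (α := ℝ) r)
      nlinarith
    · by_contra hne
      exact hj (Finset.mem_filter.2 ⟨Finset.mem_univ _, l, hl, hne⟩)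
  · have a1 := (m.par_card w T M hD P r x).trans (Nat.add_le_add_left
      (Nat.mul_le_mul_left D (m.bad_card T M P (by omega) x r)) _)
    rw [← hQ] at a1
    set I : ℕ := (m.irr x (-(P : ℤ)) (r + P)).card with hIdef
    have a2 : (({l | m.par w T M P r x l ≠ 0}.ncard : ℕ) : ℝ) ≤
        I + D * ((2 * M + 1 + Q) * I + (T + 1) * (((r + M) / Q : ℕ) + 1)) := by exact_mod_cast a1
    have a3 : (L : ℝ) * I ≤ 4 * r := hI r x hx
    have a4 : (L : ℝ) ≤ r := by exact_mod_cast m.le_of_FR hx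
    have a5 : (((r + M) / Q : ℕ) : ℝ) ≤ r / Q + M := by
      refine Nat.cast_div_le.trans ?_
      push_cast
      rw [add_div]
      have hQ1 : (1 : ℝ) ≤ Q := by exact_mod_cast (by omega : 1 ≤ Q)
      exact add_le_add le_rfl (div_le_self (Nat.cast_nonneg _) hQ1)
    have a6 : (({l | m.par w T M P r x l ≠ 0}.ncard : ℕ) : ℝ) ≤
        I + D * ((2 * M + 1 + Q) * I + (T + 1) * (r / Q + M + 1)) := by
      refine a2.trans ?_
      gcongr
    have a7 : (L : ℝ) * (I + D * ((2 * M + 1 + Q) * I + (T + 1) * (M + 1))) ≤ C * r := by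
      have b1 : (L : ℝ) * (I + D * ((2 * M + 1 + Q) * I + (T + 1) * (M + 1))) =
          (1 + D * (2 * M + 1 + Q)) * (L * I) + D * ((T + 1) * (M + 1)) * L := by ring
      have b2 : C * r = (1 + D * (2 * M + 1 + Q)) * (4 * r) + D * ((T + 1) * (M + 1)) * r := by
        rw [hC]; ring
      rw [b1, b2]
      gcongr
    have a8 : (I : ℝ) + D * ((2 * M + 1 + Q) * I + (T + 1) * (M + 1)) ≤ γ * r := by
      refine le_of_mul_le_mul_left (a7.trans ?_) hL0
      have := mul_le_mul_of_nonneg_right hL1 (Nat.cast_nonneg (α := ℝ) r)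
      linarith
    have a9 : (I : ℝ) + D * ((2 * M + 1 + Q) * I + (T + 1) * (r / Q + M + 1)) =
        I + D * ((2 * M + 1 + Q) * I + (T + 1) * (M + 1)) + D * (T + 1) / Q * r := by ring
    rw [a9] at a6
    rw [hγ] at a8
    linarith

end Vale.Agent.P093Z
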