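import Vale.Agent.P093Z.Blk

/-!
# P093, upper bound: traces

`Sys.exists_trace` : limits of orbit averages are tracial states. `Sys.exists_gap` : the hypothesis
on the dimension functions gives an inequality for all long orbit segments.
-/

set_option linter.unusedSectionVars false
set_option backward.isDefEq.respectTransparency false

open Set Filter Topology Vale.Agent.P093
open scoped ComplexOrder

namespace Vale.Agent.P093Z

/-- `0` at `0` and `1` above `ε` -/
noncomputable def fa (ε t : ℝ) : ℝ := min 1 (t / ε)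

/-- `0` below `δ` and `1` above `2 δ` -/
noncomputable def gb (δ t : ℝ) : ℝ := min 1 (max 0 (t / δ - 1))

theorem continuous_fa (ε : ℝ) : Continuous (fa ε) := by unfold fa; fun_prop

theorem continuous_gb (δ : ℝ) : Continuous (gb δ) := by unfold gb; fun_prop

section DTau

variable {A : Type*} [CStarAlgebra A] [PartialOrder A] [StarOrderedRing A] {n : ℕ}

theorem traceEval_add (τ : TracialState A) (a b : CStarMatrix (Fin n) (Fin n) A) :
    traceEval τ (a + b) = traceEval τ a + traceEval τ b := by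
  have := traceEval_sub τ (a + b) b
  rw [add_sub_cancel_right] at this
  linarith

theorem traceEval_smul (τ : TracialState A) (t : ℝ) (a : CStarMatrix (Fin n) (Fin n) A) :
    traceEval τ (t • a) = t * traceEval τ a := by
  unfold traceEval
  rw [← Complex.re_ofReal_mul, Finset.mul_sum]
  congr 1
  refine Finset.sum_congr rfl fun i _ => ?_
  rw [← smul_eq_mul, ← map_smul]
  rfl

theorem tendsto_rpow_inv {M : ℝ} (hM : 0 < M) :
    Tendsto (fun m : ℕ => M ^ (1 / (m : ℝ))) atTop (𝓝 1) := by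
  have h1 := (Real.continuousAt_const_rpow (b := 0) hM.ne').tendsto.comp
    (tendsto_one_div_atTop_nhds_zero_nat (𝕜 := ℝ))
  rw [Real.rpow_zero] at h1
  exact h1

theorem spec_le_norm {a : CStarMatrix (Fin n) (Fin n) A} (ha : 0 ≤ a) {t : ℝ}
    (ht : t ∈ spectrum ℝ a) : 0 ≤ t ∧ t ≤ ‖a‖ :=
  ⟨spectrum_nonneg_of_nonneg ha ht, (le_algebraMap_iff_spectrum_le (IsSelfAdjoint.of_nonneg ha)).1
    (IsSelfAdjoint.of_nonneg ha).le_algebraMap_norm_self t ht⟩

theorem tendsto_dTau' (τ : TracialState A) {a : CStarMatrix (Fin n) (Fin n) A} (ha : 0 ≤ a) :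
    Tendsto (fun m : ℕ => traceEval τ (cfc (fun t : ℝ => t ^ (1 / (m : ℝ))) a)) atTop
      (𝓝 (dTau τ a)) := by
  have hs : IsSelfAdjoint a := IsSelfAdjoint.of_nonneg ha
  set M : ℝ := ‖a‖ + 1 with hM
  have hM0 : 0 < M := by positivity
  have h0 : 0 ≤ M⁻¹ • a := smul_nonneg (inv_nonneg.2 hM0.le) ha
  have h1 : M⁻¹ • a ≤ 1 := by
    rw [← cfc_const_mul_id M⁻¹ a hs]
    refine cfc_le_one _ _ fun t ht => ?_
    rw [inv_mul_le_iff₀ hM0]
    linarith [(spec_le_norm ha ht).2]
  have h2 := (tendsto_rpow_inv hM0).mul (tendsto_dTau τ h0 h1)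
  have h3 : ∀ m : ℕ, M ^ (1 / (m : ℝ)) *
      traceEval τ (cfc (fun t : ℝ => t ^ (1 / (m : ℝ))) (M⁻¹ • a)) =
      traceEval τ (cfc (fun t : ℝ => t ^ (1 / (m : ℝ))) a) := by
    intro m
    have hc : Continuous fun t : ℝ => t ^ (1 / (m : ℝ)) := Real.continuous_rpow_const (by positivity)
    have hc' : Continuous fun t : ℝ => (M⁻¹ * t) ^ (1 / (m : ℝ)) :=
      hc.comp (continuous_const.mul continuous_id)
    rw [← traceEval_smul, ← cfc_comp_const_mul M⁻¹ _ a hc.continuousOn hs,
      ← cfc_const_mul _ _ a hc'.continuousOn]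
    congr 1
    refine cfc_congr fun t ht => ?_
    rw [← Real.mul_rpow hM0.le (mul_nonneg (inv_nonneg.2 hM0.le) (spec_le_norm ha ht).1),
      mul_inv_cancel_left₀ hM0.ne']
  simp only [h3] at h2
  have h4 : dTau τ a = _ := h2.limUnder_eq
  rw [h4]
  exact h2

theorem fa_le_dTau (τ : TracialState A) {a : CStarMatrix (Fin n) (Fin n) A} (ha : 0 ≤ a) {ε : ℝ}
    (hε : 0 < ε) : traceEval τ (cfc (fa ε) a) ≤ dTau τ a := by
  have h2 := (tendsto_rpow_inv (inv_pos.2 hε)).mul (tendsto_dTau' τ ha)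
  rw [one_mul] at h2
  refine ge_of_tendsto h2 ?_
  filter_upwards [eventually_ge_atTop 1] with m hm
  have hm0 : (1 : ℝ) ≤ m := by exact_mod_cast hm
  have hc : Continuous fun t : ℝ => t ^ (1 / (m : ℝ)) := Real.continuous_rpow_const (by positivity)
  rw [← traceEval_smul, ← cfc_const_mul _ _ a hc.continuousOn]
  refine traceEval_mono τ (cfc_mono (fun t ht => ?_) (continuous_fa ε).continuousOn
    (continuous_const.mul hc).continuousOn)
  have ht0 := (spec_le_norm ha ht).1
  rw [← Real.mul_rpow (inv_nonneg.2 hε.le) ht0, ← div_eq_inv_mul]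
  have hq : 0 ≤ t / ε := by positivity
  have he : 1 / (m : ℝ) ≤ 1 := by rw [div_le_one (by linarith)]; exact hm0
  rcases le_total (t / ε) 1 with h1 | h1
  · refine (min_le_right _ _).trans ?_
    conv_lhs => rw [← Real.rpow_one (t / ε)]
    exact Real.rpow_le_rpow_of_exponent_ge' hq h1 (by positivity) he
  · exact (min_le_left _ _).trans (Real.one_le_rpow h1 (by positivity))

theorem dTau_le_of (τ : TracialState A) {b : CStarMatrix (Fin n) (Fin n) A} (hb : 0 ≤ b) {C : ℝ}
    (hC : ∀ δ : ℝ, 0 < δ → traceEval τ (cfc (gb δ) b) ≤ C) : dTau τ b ≤ C := by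
  have hs : IsSelfAdjoint b := IsSelfAdjoint.of_nonneg hb
  set M : ℝ := ‖b‖ + 1 with hM
  have hM0 : 0 < M := by positivity
  have h2 := (tendsto_rpow_inv hM0).mul_const C
  rw [one_mul] at h2
  refine le_of_tendsto_of_tendsto (tendsto_dTau' τ hb) h2 ?_
  filter_upwards [eventually_ge_atTop 1] with m hm
  have hm0 : (0 : ℝ) < m := by exact_mod_cast hm
  have hc : Continuous fun t : ℝ => t ^ (1 / (m : ℝ)) := Real.continuous_rpow_const (by positivity)
  refine le_of_forall_pos_le_add fun η hη => ?_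
  set ζ : ℝ := η / (n + 1) with hζ
  have hζ0 : 0 < ζ := by positivity
  set δ : ℝ := ζ ^ m / 2 with hδ
  have hδ0 : 0 < δ := by positivity
  have hMm : 0 ≤ M ^ (1 / (m : ℝ)) := by positivity
  have h3 : cfc (fun t : ℝ => t ^ (1 / (m : ℝ))) b ≤
      cfc (fun t => ζ + M ^ (1 / (m : ℝ)) * gb δ t) b := by
    refine cfc_mono (fun t ht => ?_) hc.continuousOn
      (continuous_const.add (continuous_const.mul (continuous_gb δ))).continuousOn
    obtain ⟨ht0, ht1⟩ := spec_le_norm hb ht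
    have hg0 : 0 ≤ gb δ t := le_min zero_le_one (le_max_left _ _)
    rcases le_total t (2 * δ) with h1 | h1
    · have a1 : t ^ (1 / (m : ℝ)) ≤ (ζ ^ m) ^ (1 / (m : ℝ)) :=
        Real.rpow_le_rpow ht0 (by rw [hδ] at h1; linarith) (by positivity)
      rw [one_div, Real.pow_rpow_inv_natCast hζ0.le (by omega)] at a1
      rw [one_div] at hMm ⊢
      nlinarith [mul_nonneg hMm hg0]
    · have a1 : gb δ t = 1 := by
        refine min_eq_left (le_max_of_le_right ?_)
        rw [le_sub_iff_add_le, le_div_iff₀ hδ0]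
        linarith
      have a2 : t ^ (1 / (m : ℝ)) ≤ M ^ (1 / (m : ℝ)) :=
        Real.rpow_le_rpow ht0 (by linarith) (by positivity)
      rw [a1]
      linarith
  have h4 := traceEval_mono τ h3
  have hc' : Continuous fun t => M ^ (1 / (m : ℝ)) * gb δ t :=
    continuous_const.mul (continuous_gb δ)
  rw [cfc_const_add _ _ b hc'.continuousOn hs,
    cfc_const_mul _ _ b (continuous_gb δ).continuousOn, traceEval_add, traceEval_smul,
    Algebra.algebraMap_eq_smul_one, traceEval_smul, traceEval_one] at h4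
  have h5 : ζ * n ≤ η := by
    rw [hζ, div_mul_eq_mul_div, div_le_iff₀ (by positivity)]
    nlinarith
  have h6 := mul_le_mul_of_nonneg_left (hC δ hδ0) hMm
  linarith

theorem gb_mono {b : CStarMatrix (Fin n) (Fin n) A} (hb : 0 ≤ b) {δ δ' : ℝ} (h0 : 0 < δ')
    (hδ : δ' ≤ δ) : cfc (gb δ) b ≤ cfc (gb δ') b := by
  refine cfc_mono (fun t ht => ?_) (continuous_gb _).continuousOn (continuous_gb _).continuousOn
  refine min_le_min le_rfl (max_le_max le_rfl (sub_le_sub_right ?_ _))
  exact div_le_div_of_nonneg_left (spec_le_norm hb ht).1 h0 hδ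

end DTau

variable {X : Type*} [TopologicalSpace X] [CompactSpace X] {h : X ≃ₜ X} {A : Type*}
  [CStarAlgebra A] [PartialOrder A] [StarOrderedRing A]

namespace Sys

variable (s : Sys h A)

theorem ker_pi_mul (x : X) (m n : ℤ) (f : C(X, ℂ)) (c : A) :
    s.ker x m n (s.π f * c) = f ((h ^ m) x) * s.ker x m n c := by
  have h1 := s.inner_vec x m n (s.π (star f)) c
  rw [← map_star, star_star, vec_apply, s.lpi, inner_smul_left] at h1
  rw [← h1, ker_apply]
  simp

theorem ker_mul_pi (x : X) (m n : ℤ) (f : C(X, ℂ)) (c : A) :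
    s.ker x m n (c * s.π f) = f ((h ^ n) x) * s.ker x m n c := by
  rw [ker_apply, vec_mul, vec_apply, s.lpi, map_smul, inner_smul_right]
  rfl

theorem ker_mul_U (x : X) (m n : ℤ) (c : A) : s.ker x m n (c * s.U) = s.ker x m (n + 1) c := by
  have h1 := s.lU 1 n x
  rw [zpow_one] at h1
  rw [ker_apply, vec_mul, vec_apply, h1]
  rfl

theorem ker_U_mul (x : X) (m n : ℤ) (c : A) : s.ker x m n (s.U * c) = s.ker x (m - 1) n c := by
  have h1 := s.inner_vec x m n ((s.U ^ (-1 : ℤ) : Aˣ) : A) c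
  rw [star_units_zpow s.starU, neg_neg, zpow_one, vec_apply, s.lU] at h1
  rw [← h1]
  rfl

/-- the average of the diagonal coefficients -/
noncomputable def avg (x : X) (N : ℕ) : A →L[ℂ] ℂ :=
  (N : ℂ)⁻¹ • ∑ m ∈ Finset.range N, s.ker x m m

theorem avg_apply (x : X) (N : ℕ) (c : A) :
    s.avg x N c = (N : ℂ)⁻¹ * ∑ m ∈ Finset.range N, s.ker x m m c := by
  simp [avg]

theorem norm_avg_le (x : X) (N : ℕ) (c : A) : ‖s.avg x N c‖ ≤ ‖c‖ := by
  rw [avg_apply, norm_mul, norm_inv, Complex.norm_natCast]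
  rcases Nat.eq_zero_or_pos N with h0 | h0
  · simp [h0]
  have h1 : ‖∑ m ∈ Finset.range N, s.ker x m m c‖ ≤ N * ‖c‖ := by
    refine (norm_sum_le _ _).trans ((Finset.sum_le_sum fun m _ => s.norm_ker_le _ _ _ c).trans ?_)
    simp
  rw [inv_mul_le_iff₀ (by exact_mod_cast h0)]
  exact h1

theorem avg_comm_U (x : X) (N : ℕ) (c : A) :
    ‖s.avg x N (c * s.U) - s.avg x N (s.U * c)‖ ≤ (N : ℝ)⁻¹ * (2 * ‖c‖) := by
  rw [avg_apply, avg_apply, ← mul_sub, ← Finset.sum_sub_distrib, norm_mul, norm_inv,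
    Complex.norm_natCast]
  refine mul_le_mul_of_nonneg_left ?_ (by positivity)
  have h1 := Finset.sum_range_sub (fun m : ℕ => s.ker x ((m : ℤ) - 1) m c) N
  simp only [Nat.cast_add, Nat.cast_one, add_sub_cancel_right] at h1
  simp only [ker_mul_U, ker_U_mul]
  rw [h1]
  refine (norm_sub_le _ _).trans ?_
  linarith [s.norm_ker_le x ((N : ℤ) - 1) N c, s.norm_ker_le x (((0 : ℕ) : ℤ) - 1) (0 : ℕ) c]

theorem exists_trace (x : ℕ → X) (N : ℕ → ℕ) (hN : ∀ j, j + 1 ≤ N j) :
    ∃ τ : TracialState A, ∀ c,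
      Tendsto (fun j => s.avg (x j) (N j) c) (hyperfilter ℕ) (𝓝 (τ.toFun c)) := by
  have h1 : ∀ c : A, ∃ z ∈ Metric.closedBall (0 : ℂ) ‖c‖,
      Tendsto (fun j => s.avg (x j) (N j) c) (hyperfilter ℕ) (𝓝 z) := by
    intro c
    refine (isCompact_closedBall (0 : ℂ) ‖c‖).ultrafilter_le_nhds
      ((hyperfilter ℕ).map fun j => s.avg (x j) (N j) c) ?_
    rw [le_principal_iff, Ultrafilter.mem_coe, Ultrafilter.mem_map]
    exact univ_mem' fun j => mem_closedBall_zero_iff.2 (s.norm_avg_le _ _ c)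
  choose t ht1 ht using h1
  let T : A →ₗ[ℂ] ℂ :=
    { toFun := t
      map_add' := fun c d => tendsto_nhds_unique (ht (c + d)) (by
        simp only [map_add]; exact (ht c).add (ht d))
      map_smul' := fun a c => tendsto_nhds_unique (ht (a • c)) (by
        simp only [map_smul]; exact (ht c).const_smul a) }
  have hT : Continuous T := AddMonoidHomClass.continuous_of_bound T 1 fun c => by
    rw [one_mul]
    exact mem_closedBall_zero_iff.1 (ht1 c)
  have hN0 : ∀ j, (N j : ℂ) ≠ 0 := fun j => by have := hN j; exact_mod_cast (by omega : N j ≠ 0)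
  have hle : (hyperfilter ℕ : Filter ℕ) ≤ atTop := Nat.hyperfilter_le_atTop
  have hU : ∀ c, T (s.U * c) = T (c * s.U) := by
    intro c
    have a1 := (ht (c * s.U)).sub (ht (s.U * c))
    have a2 : Tendsto (fun j => s.avg (x j) (N j) (c * s.U) - s.avg (x j) (N j) (s.U * c))
        atTop (𝓝 0) := by
      have b1 : Tendsto N atTop atTop :=
        tendsto_atTop_mono (fun j => (Nat.le_succ j).trans (hN j)) tendsto_id
      have b2 := ((tendsto_inv_atTop_nhds_zero_nat (𝕜 := ℝ)).comp b1).mul_const (2 * ‖c‖)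
      rw [zero_mul] at b2
      exact squeeze_zero_norm (fun j => s.avg_comm_U _ _ c) b2
    exact (sub_eq_zero.1 (tendsto_nhds_unique a1 (a2.mono_left hle))).symm
  have hmul : ∀ y y' : A, (∀ c, T (y * c) = T (c * y)) → (∀ c, T (y' * c) = T (c * y')) →
      ∀ c, T (y * y' * c) = T (c * (y * y')) := by
    intro y y' hy hy' c
    rw [mul_assoc, hy, mul_assoc, hy', mul_assoc]
  have hUi : ∀ c, T (((s.U⁻¹ : Aˣ) : A) * c) = T (c * ((s.U⁻¹ : Aˣ) : A)) := by
    intro c
    have := hU (((s.U⁻¹ : Aˣ) : A) * c * ((s.U⁻¹ : Aˣ) : A))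
    rw [mul_assoc _ c, Units.mul_inv_cancel_left, ← mul_assoc, Units.inv_mul_cancel_right] at this
    exact this.symm
  have hUk : ∀ (k : ℤ) c, T (((s.U ^ k : Aˣ) : A) * c) = T (c * ((s.U ^ k : Aˣ) : A)) := by
    intro k
    induction k using Int.induction_on with
    | zero => simp
    | succ k ih =>
      rw [zpow_add_one, Units.val_mul]
      exact hmul _ _ ih hU
    | pred k ih =>
      rw [zpow_sub_one, Units.val_mul]
      exact hmul _ _ ih hUi
  have hπ : ∀ f c, T (s.π f * c) = T (c * s.π f) := by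
    intro f c
    refine tendsto_nhds_unique (ht _) ((ht _).congr fun j => ?_)
    simp only [avg_apply, ker_pi_mul, ker_mul_pi]
  refine ⟨⟨T, ?_, fun c => ?_, fun y => ?_⟩, ht⟩
  · refine tendsto_nhds_unique (ht 1) (tendsto_const_nhds.congr fun j => ?_)
    simp [avg_apply, ker_one, hN0 j]
  · refine ge_of_tendsto' (ht _) fun j => ?_
    rw [avg_apply]
    refine mul_nonneg (inv_nonneg.2 (Nat.cast_nonneg _)) (Finset.sum_nonneg fun m _ => ?_)
    rw [ker_star_mul_self]
    exact Complex.zero_le_real.2 (by positivity)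
  · refine s.ind (P := fun y => ∀ c, T (y * c) = T (c * y)) ?_ (by simp)
      (fun f k => hmul _ _ (hπ f) (hUk k)) (fun y y' h1 h2 c => ?_) (fun a y h1 c => ?_) y
    · simp only [ofPred_forall]
      exact isClosed_iInter fun c => isClosed_eq (hT.comp (by fun_prop)) (hT.comp (by fun_prop))
    · rw [add_mul, mul_add, map_add, map_add, h1, h2]
    · rw [smul_mul_assoc, mul_smul_comm, map_smul, map_smul, h1]

theorem trace_blk_eq {n : ℕ} (x : X) {N : ℕ} (hN : 0 < N) (c : CStarMatrix (Fin n) (Fin n) A) :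
    (Matrix.trace (s.blk x N c)).re = N * (∑ i, s.avg x N (c i i)).re := by
  rw [trace_blk, ← Complex.re_ofReal_mul, Finset.mul_sum]
  congr 1
  refine Finset.sum_congr rfl fun i _ => ?_
  have h0 : (N : ℂ) ≠ 0 := by exact_mod_cast hN.ne'
  rw [avg_apply, Complex.ofReal_natCast, mul_inv_cancel_left₀ h0,
    Fin.sum_univ_eq_sum_range (fun m : ℕ => s.ker x m m (c i i))]

theorem exists_gap {n m : ℕ} {a : CStarMatrix (Fin n) (Fin n) A}
    {b : CStarMatrix (Fin m) (Fin m) A} (ha : 0 ≤ a) (hb : 0 ≤ b) {r₀ : ℝ}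
    (H : ∀ τ : TracialState A, dTau τ a + r₀ < dTau τ b) {ε : ℝ} (hε : 0 < ε) :
    ∃ δ : ℝ, 0 < δ ∧ ∃ N₀ : ℕ, ∀ N, N₀ ≤ N → ∀ x,
      (Matrix.trace (s.blk x N (cfc (fa ε) a))).re + r₀ * N <
        (Matrix.trace (s.blk x N (cfc (gb δ) b))).re := by
  by_contra hn
  push Not at hn
  have h1 := fun j : ℕ => hn (1 / ((j : ℝ) + 1)) (by positivity) (j + 1)
  choose N hN x hx using h1
  obtain ⟨τ, hτ⟩ := s.exists_trace x N hN
  have hlim : ∀ {k : ℕ} (c : CStarMatrix (Fin k) (Fin k) A),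
      Tendsto (fun j => (∑ i, s.avg (x j) (N j) (c i i)).re) (hyperfilter ℕ) (𝓝 (traceEval τ c)) :=
    fun c => (Complex.continuous_re.tendsto _).comp (tendsto_finsetSum _ fun i _ => hτ _)
  have h2 : dTau τ b ≤ traceEval τ (cfc (fa ε) a) + r₀ := by
    refine dTau_le_of τ hb fun δ hδ => ?_
    refine le_of_tendsto_of_tendsto (hlim _) ((hlim _).add_const r₀) ?_
    have a1 : ∀ᶠ j : ℕ in atTop, 1 / ((j : ℝ) + 1) < δ :=
      (tendsto_one_div_add_atTop_nhds_zero_nat (𝕜 := ℝ)).eventually (gt_mem_nhds hδ)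
    filter_upwards [Nat.hyperfilter_le_atTop a1] with j hj
    have hN0 : 0 < N j := by have := hN j; omega
    have a2 := (Complex.nonneg_iff.1 (s.blk_posSemidef (x j) (N j)
      (sub_nonneg.2 (gb_mono hb (by positivity) (le_of_lt hj)))).trace_nonneg).1
    rw [map_sub, Matrix.trace_sub, Complex.sub_re] at a2
    have a3 := hx j
    have a4 : (Matrix.trace (s.blk (x j) (N j) (cfc (gb δ) b))).re ≤
        (Matrix.trace (s.blk (x j) (N j) (cfc (fa ε) a))).re + r₀ * N j := by linarith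
    rw [s.trace_blk_eq _ hN0, s.trace_blk_eq _ hN0] at a4
    have a5 : (0 : ℝ) < N j := by exact_mod_cast hN0
    refine le_of_mul_le_mul_left ?_ a5
    linarith
  have h3 := fa_le_dTau τ ha hε
  have h4 := H τ
  linarith

end Sys

end Vale.Agent.P093Z
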