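import Vale.Agent.P093Z.Cut
import Vale.Agent.P093Z.Trace
import Vale.Agent.P093Z.Param

/-!
# P093, upper bound: `rc(A) ≤ mdim(h) / 2`
-/

set_option linter.unusedSectionVars false
set_option backward.isDefEq.respectTransparency false

open Set Filter Topology Vale.Agent.P093 Matrix
open scoped ENNReal ComplexOrder

namespace Vale.Agent.P093Z

theorem cfc_sq_ineq {B : Type*} [CStarAlgebra B] [PartialOrder B] [StarOrderedRing B] {a : B}
    (ha : IsSelfAdjoint a) {g : ℝ → ℝ} (hg : Continuous g) (α β σ : ℝ)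
    (H : ∀ t ∈ spectrum ℝ a, σ * g t ≤ (α + β * t) * (α + β * t)) :
    σ • cfc g a ≤ (algebraMap ℝ B α + β • a) * (algebraMap ℝ B α + β • a) := by
  have h1 : cfc (fun t : ℝ => α + β * t) a = algebraMap ℝ B α + β • a := by
    rw [cfc_const_add α (fun t : ℝ => β * t) a (by fun_prop) ha, cfc_const_mul_id β a ha]
  rw [← h1, ← cfc_mul _ _ a (by fun_prop) (by fun_prop), ← cfc_const_mul σ g a hg.continuousOn]
  exact cfc_mono H (by fun_prop) (by fun_prop)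

theorem ker_of_sum {ι κ μ : Type*} [Fintype ι] [Fintype κ] [Fintype μ] (P : Matrix κ ι ℂ)
    (Q : Matrix μ ι ℂ) {ξ : ι → ℂ} (H : (Pᴴ * P + Qᴴ * Q) *ᵥ ξ = 0) : P *ᵥ ξ = 0 ∧ Q *ᵥ ξ = 0 := by
  have h1 : star (P *ᵥ ξ) ⬝ᵥ (P *ᵥ ξ) + star (Q *ᵥ ξ) ⬝ᵥ (Q *ᵥ ξ) = 0 := by
    rw [star_mulVec, star_mulVec, ← dotProduct_mulVec, ← dotProduct_mulVec, mulVec_mulVec,
      mulVec_mulVec, ← dotProduct_add, ← add_mulVec, H, dotProduct_zero]
  have h2 := (add_eq_zero_iff_of_nonneg (dotProduct_star_self_nonneg _)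
    (dotProduct_star_self_nonneg _)).1 h1
  exact ⟨dotProduct_star_self_eq_zero.1 h2.1, dotProduct_star_self_eq_zero.1 h2.2⟩

theorem exists_small (N C : ℝ) {σ : ℝ} (hσ : 0 < σ) :
    ∃ η₀ : ℝ, 0 < η₀ ∧ ∀ η : ℝ, 0 < η → η ≤ η₀ → N ^ 2 * (η ^ 2 + C ^ 2 * η) ≤ σ := by
  refine ⟨min 1 (σ / (N ^ 2 * (1 + C ^ 2) + 1)), by positivity, fun η h0 h1 => ?_⟩
  have a1 : η ≤ 1 := h1.trans (min_le_left _ _)
  have a2 := h1.trans (min_le_right _ _)
  rw [le_div_iff₀ (by positivity)] at a2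
  have a3 : N ^ 2 * η ^ 2 ≤ N ^ 2 * η := mul_le_mul_of_nonneg_left (by nlinarith) (sq_nonneg _)
  nlinarith

variable {X : Type*} [TopologicalSpace X] [CompactSpace X] {h : X ≃ₜ X} {A : Type*}
  [CStarAlgebra A] [PartialOrder A] [StarOrderedRing A]

namespace Sys

variable (s : Sys h A)

theorem count_a {n : ℕ} {a a₂ : CStarMatrix (Fin n) (Fin n) A} (ha : 0 ≤ a) (ha₂ : IsSelfAdjoint a₂)
    {Y : Set X} (hm : a₂ ∈ matAlg (Fin n) (s.brk Y)) {r : ℕ} {x : X} (hx : Win h Y r x) {ε : ℝ}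
    (hε : 0 < ε) : ε ^ 2 * (n * r - (trace (s.blk x r (cfc (fa ε) a))).re) ≤
      ε ^ 2 * (s.blk x r (algebraMap ℝ _ (2 * ε) - a₂)⁺).rank +
        (trace (s.blk x r (star (a - a₂) * (a - a₂)))).re := by
  have hs : IsSelfAdjoint a := IsSelfAdjoint.of_nonneg ha
  have hr : IsSelfAdjoint (algebraMap ℝ (CStarMatrix (Fin n) (Fin n) A) (2 * ε)) :=
    IsSelfAdjoint.algebraMap _ (IsSelfAdjoint.all _)
  have hg : cfc (fun t => 1 - fa ε t) a = 1 - cfc (fa ε) a := by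
    rw [cfc_sub _ _ a (by fun_prop) (continuous_fa ε).continuousOn, cfc_const_one ℝ a]
  have h1 := ls (s := s) hx (hr.sub hs) (hr.sub ha₂) (sub_mem (real_mem_matAlg _ _) hm)
    (g := 1 - cfc (fa ε) a) (sq_nonneg ε) (sub_le_self _ (cfc_nonneg fun t ht =>
      le_min zero_le_one (div_nonneg (spec_le_norm ha ht).1 hε.le))) fun l hl => by
    have e1 : algebraMap ℝ (CStarMatrix (Fin n) (Fin n) A) (2 * ε) - a - algebraMap ℝ _ l =
        algebraMap ℝ _ (2 * ε - l) + (-1 : ℝ) • a := by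
      rw [map_sub, neg_one_smul]
      abel
    rw [e1, ← hg]
    have hc : Continuous fun t => 1 - fa ε t := continuous_const.sub (continuous_fa ε)
    refine cfc_sq_ineq hs hc _ _ _ fun t ht => ?_
    have t0 := (spec_le_norm ha ht).1
    rcases le_total ε t with h2 | h2
    · rw [fa, min_eq_left ((one_le_div hε).2 h2), sub_self, mul_zero]
      exact mul_self_nonneg _
    · have a1 : 0 ≤ fa ε t := le_min zero_le_one (div_nonneg t0 hε.le)
      have a2 : ε ≤ 2 * ε - l + -1 * t := by linarith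
      nlinarith [mul_nonneg (sq_nonneg ε) a1]
  have e2 : algebraMap ℝ (CStarMatrix (Fin n) (Fin n) A) (2 * ε) - a -
      (algebraMap ℝ _ (2 * ε) - a₂) = -(a - a₂) := by abel
  rw [e2, star_neg, neg_mul_neg, map_sub, blk_one, trace_sub, trace_one, Complex.sub_re,
    Fintype.card_prod, Fintype.card_fin, Fintype.card_fin, Complex.natCast_re, Nat.cast_mul] at h1
  exact h1

theorem count_b {n : ℕ} {b b₂ : CStarMatrix (Fin n) (Fin n) A} (hb : 0 ≤ b) (hb₂ : IsSelfAdjoint b₂)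
    {Y : Set X} (hm : b₂ ∈ matAlg (Fin n) (s.brk Y)) {r : ℕ} {x : X} (hx : Win h Y r x) {δ : ℝ}
    (hδ : 0 < δ) : (δ / 2) ^ 2 * (trace (s.blk x r (cfc (gb δ) b))).re ≤
      (δ / 2) ^ 2 * (s.blk x r (b₂ - algebraMap ℝ _ (δ / 2))⁺).rank +
        (trace (s.blk x r (star (b - b₂) * (b - b₂)))).re := by
  have hs : IsSelfAdjoint b := IsSelfAdjoint.of_nonneg hb
  have hr : IsSelfAdjoint (algebraMap ℝ (CStarMatrix (Fin n) (Fin n) A) (δ / 2)) :=
    IsSelfAdjoint.algebraMap _ (IsSelfAdjoint.all _)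
  have h1 := ls (s := s) hx (hs.sub hr) (hb₂.sub hr) (sub_mem hm (real_mem_matAlg _ _))
    (g := cfc (gb δ) b) (sq_nonneg (δ / 2)) (cfc_le_one _ _ fun t _ => min_le_left _ _)
    fun l hl => by
    have e1 : b - algebraMap ℝ (CStarMatrix (Fin n) (Fin n) A) (δ / 2) - algebraMap ℝ _ l =
        algebraMap ℝ _ (-(δ / 2) - l) + (1 : ℝ) • b := by
      rw [map_sub, map_neg, one_smul]
      abel
    rw [e1]
    refine cfc_sq_ineq hs (continuous_gb δ) _ _ _ fun t _ => ?_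
    rcases le_total t δ with h2 | h2
    · rw [gb, max_eq_left (sub_nonpos.2 ((div_le_one hδ).2 h2)), min_eq_right zero_le_one, mul_zero]
      exact mul_self_nonneg _
    · have a1 : gb δ t ≤ 1 := min_le_left _ _
      have a2 : δ / 2 ≤ -(δ / 2) - l + 1 * t := by linarith
      nlinarith [mul_le_mul_of_nonneg_left a1 (sq_nonneg (δ / 2))]
  rwa [sub_sub_sub_cancel_right] at h1

include s in
theorem le_add_eps [T2Space X] [Infinite X] (hmin : IsMinimalHomeo h) {μ r₀ : ℝ} (hμ0 : 0 ≤ μ)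
    (hμ : meanDim h < ENNReal.ofReal μ) (hr : μ < 2 * r₀) {n m : ℕ}
    {a : CStarMatrix (Fin n) (Fin n) A} {b : CStarMatrix (Fin m) (Fin m) A} (ha : 0 ≤ a)
    (hb : 0 ≤ b) (H : ∀ τ : TracialState A, dTau τ a + r₀ < dTau τ b) {ε : ℝ} (hε : 0 < ε) :
    ∃ y : CStarMatrix (Fin m) (Fin n) A,
      a ≤ y.conjTranspose * b * y + algebraMap ℝ _ (6 * ε) := by
  have has : IsSelfAdjoint a := IsSelfAdjoint.of_nonneg ha
  have hbs : IsSelfAdjoint b := IsSelfAdjoint.of_nonneg hb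
  obtain ⟨δ, hδ, N₀, hgap⟩ := s.exists_gap ha hb H hε
  set γ : ℝ := (r₀ - μ / 2) / 2 with hγ
  have hγ0 : 0 < γ := by linarith
  obtain ⟨η₁, h₁, hη₁⟩ := exists_small n (6 * ‖a‖ + ε) (σ := ε ^ 2 * γ) (by positivity)
  obtain ⟨η₂, h₂, hη₂⟩ := exists_small m (2 * ‖b‖ + ε) (σ := (δ / 2) ^ 2 * γ) (by positivity)
  set η : ℝ := min (min η₁ η₂) (min ε (δ / 2)) with hη
  have hη0 : 0 < η := by positivity
  have hηε : η ≤ ε := (min_le_right _ _).trans (min_le_left _ _)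
  have hηδ : η ≤ δ / 2 := (min_le_right _ _).trans (min_le_right _ _)
  have b₁ := hη₁ η hη0 ((min_le_left _ _).trans (min_le_left _ _))
  have b₂ := hη₂ η hη0 ((min_le_left _ _).trans (min_le_right _ _))
  obtain ⟨Ka, f₁, hf₁⟩ := s.exists_bandMat a hη0
  obtain ⟨Kb, f₂, hf₂⟩ := s.exists_bandMat b hη0
  set K : ℕ := max Ka Kb with hK
  obtain ⟨ζ₁, hζ₁, hf₁⟩ := hf₁ K (le_max_left _ _)
  obtain ⟨ζ₂, hζ₂, hf₂⟩ := hf₂ K (le_max_right _ _)
  obtain ⟨ρ, R, g, hρ, hR, hg, hP⟩ := exists_param hmin hμ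
    (F := (Fin n × Fin n × Finset.Icc (-(K : ℤ)) K) ⊕ (Fin m × Fin m × Finset.Icc (-(K : ℤ)) K))
    (Sum.elim (fun p => f₁ p.1 p.2.1 p.2.2) fun p => f₂ p.1 p.2.1 p.2.2) (lt_min hζ₁ hζ₂)
    (2 * K) N₀ hη0
  set Y : Set X := {x | ρ x = 0} with hY
  let g₁ : Fin n → Fin n → ℤ → C(X, ℂ) := fun i j k =>
    if hk : k ∈ Finset.Icc (-(K : ℤ)) K then g (Sum.inl (i, j, ⟨k, hk⟩)) else 0
  let g₂ : Fin m → Fin m → ℤ → C(X, ℂ) := fun i j k =>
    if hk : k ∈ Finset.Icc (-(K : ℤ)) K then g (Sum.inr (i, j, ⟨k, hk⟩)) else 0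
  obtain ⟨a₁, a₂, ha₁, ha₂, c₁, c₂, c₃, c₄, c₅⟩ := s.exists_cut has (hf₁ g₁ fun i j k hk => by
    simp only [g₁, dif_pos hk]
    exact (hg (Sum.inl (i, j, ⟨k, hk⟩))).trans (min_le_left _ _)) hρ (norm_nonneg a)
  obtain ⟨b₁', b₂', hb₁, hb₂, d₁, d₂, d₃, d₄, d₅⟩ := s.exists_cut hbs (hf₂ g₂ fun i j k hk => by
    simp only [g₂, dif_pos hk]
    exact (hg (Sum.inr (i, j, ⟨k, hk⟩))).trans (min_le_right _ _)) hρ le_rfl
  have ht : s.mon (cf ρ) 1 ∈ s.brk Y := shift_mem _ fun y hy => by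
    rw [cf_apply, show ρ y = 0 from hy, Complex.ofReal_zero]
  have ma : a₂ ∈ matAlg (Fin n) (s.brk Y) := c₄ _ ht (fun _ _ => pi_mem _) fun _ _ _ _ => pi_mem _
  have mb : b₂' ∈ matAlg (Fin m) (s.brk Y) := d₄ _ ht (fun _ _ => pi_mem _) fun _ _ _ _ => pi_mem _
  set xa : CStarMatrix (Fin n) (Fin n) A := algebraMap ℝ _ (2 * ε) - a₂ with hxa
  set xb : CStarMatrix (Fin m) (Fin m) A := b₂' - algebraMap ℝ _ (δ / 2) with hxb
  have hxas : IsSelfAdjoint xa := (IsSelfAdjoint.algebraMap _ (IsSelfAdjoint.all _)).sub ha₂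
  have hxbs : IsSelfAdjoint xb := hb₂.sub (IsSelfAdjoint.algebraMap _ (IsSelfAdjoint.all _))
  obtain ⟨w, hw, hgen⟩ := exists_gen (s := s) hR hxas hxbs fun r => by
    obtain ⟨h1, Λ, _, e, h2, h3, h4⟩ := hP r
    have k1 : s.mon (cf ρ) 1 ∈ s.lipAlg Y r e := shift_mem_lip (fun y hy => by
      rw [cf_apply, show ρ y = 0 from hy, Complex.ofReal_zero])
      fun j hj => (h3 j (by omega) (by omega)).ofReal
    have k2 : ∀ l : ℕ, l < K → s.π (powComp h (-(l : ℤ)) (cf ρ)) ∈ s.lipAlg Y r e :=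
      fun l hl => pi_mem_lip fun j hj =>
        (h3 (-(l : ℤ) + j) (by omega) (by omega)).ofReal.congr fun x _ => by
          rw [powComp_apply, zpow_app, cf_apply]
    refine ⟨Λ, inferInstance, e, ⌊μ * r⌋₊, fun x hx => ⟨Nat.le_floor (h2 x hx), ?_⟩,
      sub_mem (real_mem_matAlg _ _) (c₄ _ k1 k2 fun i j k hk => ?_),
      sub_mem (d₄ _ k1 k2 fun i j k hk => ?_) (real_mem_matAlg _ _), k1⟩
    · obtain ⟨hN, B, hB, hgood⟩ := h1 x hx
      have r0 : (0 : ℝ) ≤ r := Nat.cast_nonneg _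
      have t1 := s.trace_sq_le x r (a - a₂) (C := 6 * ‖a‖ + ε) (by linarith) B
        fun j hj => c₅ x _ (hgood j hj)
      have t2 := s.trace_sq_le x r (b - b₂') (C := 2 * ‖b‖ + ε) (by linarith) B
        fun j hj => d₅ x _ (hgood j hj)
      rw [Fintype.card_fin] at t1 t2
      have t3 : (n : ℝ) ^ 2 * (η ^ 2 * r + (6 * ‖a‖ + ε) ^ 2 * B.card) ≤ ε ^ 2 * γ * r := by
        refine le_trans ?_ (mul_le_mul_of_nonneg_right b₁ r0)
        rw [mul_assoc, add_mul, mul_assoc _ η]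
        gcongr
      have t4 : (m : ℝ) ^ 2 * (η ^ 2 * r + (2 * ‖b‖ + ε) ^ 2 * B.card) ≤ (δ / 2) ^ 2 * γ * r := by
        refine le_trans ?_ (mul_le_mul_of_nonneg_right b₂ r0)
        rw [mul_assoc, add_mul, mul_assoc _ η]
        gcongr
      have u1 := (s.count_a ha ha₂ ma hx.1 hε).trans (add_le_add le_rfl (t1.trans t3))
      have u2 := (s.count_b hb hb₂ mb hx.1 hδ).trans (add_le_add le_rfl (t2.trans t4))
      rw [mul_assoc, ← mul_add] at u1 u2
      have u3 := le_of_mul_le_mul_left u1 (by positivity)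
      have u4 := le_of_mul_le_mul_left u2 (by positivity)
      have u5 := hgap r hN x
      have u6 := Nat.floor_le (mul_nonneg hμ0 r0)
      have u7 : ((⌊μ * r⌋₊ + 2 * (n * r) : ℕ) : ℝ) <
          (2 * (s.blk x r xa⁺).rank + 2 * (s.blk x r xb⁺).rank : ℕ) := by
        push_cast
        rw [hγ] at u3 u4
        linarith
      rw [Fintype.card_fin]
      exact_mod_cast u7
    · simp only [g₁, dif_pos hk]
      exact pi_mem_lip fun j hj => h4 _ j hj
    · simp only [g₂, dif_pos hk]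
      exact pi_mem_lip fun j hj => h4 _ j hj
  have mxa : xa⁺ ∈ matAlg (Fin n) (s.brk Y) := posPart_mem (sub_mem (real_mem_matAlg _ _) ma)
  have mxb : xb⁺ ∈ matAlg (Fin m) (s.brk Y) := posPart_mem (sub_mem mb (real_mem_matAlg _ _))
  have mw : ∀ i j, (xb⁺ * w) i j ∈ s.brk Y := fun i j => by
    rw [CStarMatrix.mul_apply]
    exact sum_mem fun k _ => mul_mem (mxb i k) (hw k j)
  obtain ⟨η₀, hη₀, hlow⟩ := exists_lower (s := s) (isClosed_eq ρ.continuous continuous_const) hR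
    (c := star xa⁺ * xa⁺ + (xb⁺ * w).conjTranspose * (xb⁺ * w))
    (add_nonneg (star_mul_self_nonneg _) (rect_nonneg _))
    (add_mem (mul_mem (star_mem mxa) mxa) fun i j => by
      rw [CStarMatrix.mul_apply]
      exact sum_mem fun k _ => mul_mem (star_mem (mw k i)) (mw k j)) fun r x hx ξ hξ => by
    rw [map_add, blk_mul hx.1 _ mw, blk_conjTranspose,
      show s.blk x r (star xa⁺ * xa⁺) = _ from blk_mul hx.1 _ mxa, blk_star] at hξ
    obtain ⟨k1, k2⟩ := ker_of_sum _ _ hξ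
    exact hgen r x hx ξ k1 k2
  have hsb : xb ≤ s.cutE (Fin m) ρ K * b * s.cutE (Fin m) ρ K := by
    have k1 := conj_le_add (hb₁.sub hbs) (s.cutE_sa ρ K) (s.norm_cutE hρ K)
      (η := δ / 2) (by rw [norm_sub_rev]; linarith)
    rw [hxb, d₂, zero_smul, add_zero, sub_le_iff_le_add]
    exact k1
  obtain ⟨y, hy⟩ := negPart_le hxbs (s.cutE_sa ρ K) hsb hη₀ hlow
  obtain ⟨y', hy'⟩ := rect_smul 2 zero_le_two b y
  refine ⟨y', ?_⟩
  have k1 := conj_le_add (has.sub ha₁) (s.cutE_sa ρ K) (s.norm_cutE hρ K) (c₁.trans hηε)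
  have k2 : a₂ ≤ algebraMap ℝ _ (2 * ε) + xa⁻ := by
    have := CFC.neg_negPart_le hxas
    rw [hxa, le_sub_comm, sub_neg_eq_add] at this
    exact this
  refine (le_cut ha (s.cutE_sa ρ K)).trans ?_
  have k3 : s.cutE (Fin n) ρ K * a * s.cutE (Fin n) ρ K +
      ‖a‖ • ((1 - s.cutE (Fin n) ρ K) * (1 - s.cutE (Fin n) ρ K)) ≤
      y.conjTranspose * b * y + algebraMap ℝ _ (3 * ε) := by
    calc _ ≤ a₂ + algebraMap ℝ _ ε := by
          rw [c₂, add_right_comm]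
          exact add_le_add k1 le_rfl
      _ ≤ algebraMap ℝ _ (2 * ε) + y.conjTranspose * b * y + algebraMap ℝ _ ε :=
          add_le_add (k2.trans (add_le_add le_rfl hy)) le_rfl
      _ = _ := by
          rw [show 3 * ε = 2 * ε + ε by ring, map_add]
          abel
  refine (smul_le_smul_of_nonneg_left k3 zero_le_two).trans (le_of_eq ?_)
  rw [smul_add, hy', show 6 * ε = (2 : ℝ) • (3 * ε) by rw [smul_eq_mul]; ring, Algebra.smul_def,
    ← map_mul]
  rfl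

end Sys

/-- **The upper bound.** -/
theorem rc_le [T2Space X] [Infinite X] (hmin : IsMinimalHomeo h) (hA : IsCrossedProduct h A) :
    radiusOfComparison A ≤ meanDim h / 2 := by
  obtain ⟨s⟩ := exists_sys hmin hA
  refine le_of_forall_gt_imp_ge_of_dense fun c hc => ?_
  rcases eq_or_ne c ∞ with rfl | hc'
  · exact le_top
  rw [← ENNReal.ofReal_toReal hc'] at hc ⊢
  set r₀ := c.toReal
  have h0 : 0 ≤ r₀ := ENNReal.toReal_nonneg
  have h1 : meanDim h < ENNReal.ofReal (2 * r₀) := by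
    rw [ENNReal.div_lt_iff (Or.inl two_ne_zero) (Or.inl ENNReal.ofNat_ne_top)] at hc
    rwa [mul_comm, ENNReal.ofReal_mul h0, ENNReal.ofReal_ofNat]
  obtain ⟨μ, hμ0, h2, h3⟩ := ENNReal.lt_iff_exists_real_btwn.1 h1
  have h4 : μ < 2 * r₀ := (ENNReal.ofReal_lt_ofReal_iff_of_nonneg hμ0).1 h3
  have h5 : IsComparisonBound A r₀ := ⟨h0, fun n m a b ha hb H =>
    cuntz_of_le ha hb fun ε hε => by
      have := s.le_add_eps hmin hμ0 h2 h4 ha hb H (ε := ε / 6) (by positivity)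
      rwa [show 6 * (ε / 6) = ε by ring] at this⟩
  exact iInf_le (fun r : {r : ℝ // IsComparisonBound A r} => ENNReal.ofReal r.1) ⟨r₀, h5⟩

end Vale.Agent.P093Z
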