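import Vale.Agent.P093.Bdl.B2
import Vale.Agent.P093.CrossedDef

/-!
# P093, upper bound: kernels of the elements of a crossed product

`Sys h A` : a covariant pair which generates `A`, with a representation on `ℓ²(ℤ × X)`.
`Sys.ker c x m n` : the matrix coefficients of `c` along the orbit of `x`.
-/

set_option linter.unusedSectionVars false

open Set Filter Topology Vale.Agent.P093

namespace Vale.Agent.P093Z

/-- a crossed product with its regular representation -/
structure Sys {X : Type*} [TopologicalSpace X] [CompactSpace X] (h : X ≃ₜ X) (A : Type*)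
    [CStarAlgebra A] where
  π : C(X, ℂ) →⋆ₐ[ℂ] A
  U : Aˣ
  Λ : A →⋆ₐ[ℂ] OpX X
  starU : star (U : A) = ((U⁻¹ : Aˣ) : A)
  cov : ∀ f, (U : A) * π f = π (powComp h (-1) f) * U
  dense : Dense (monSpan π U : Set A)
  lpi : ∀ f j x, Λ (π f) (dvec j x) = f ((h ^ j) x) • (dvec j x : Ell2 X)
  lU : ∀ (k j : ℤ) x, Λ ((U ^ k : Aˣ) : A) (dvec j x) = (dvec (j + k) x : Ell2 X)

variable {X : Type*} [TopologicalSpace X] [CompactSpace X] {h : X ≃ₜ X} {A : Type*}
  [CStarAlgebra A]

theorem exists_sys [T2Space X] [Infinite X] (hmin : IsMinimalHomeo h)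
    (hA : IsCrossedProduct h A) : Nonempty (Sys h A) := by
  obtain ⟨π, u, hπ, hu1, hu2, hcov, hd⟩ := hA
  have hfree : ∀ (k : ℤ) (x : X), k ≠ 0 → (h ^ k) x ≠ x := by
    intro k x hk hx
    rcases lt_or_gt_of_ne hk with h1 | h1
    · refine not_periodic h hmin x (n := -k) (by omega) ?_
      conv_lhs => rw [← hx]
      rw [← zpow_add_apply']
      simp
    · exact not_periodic h hmin x h1 hx
  obtain ⟨Λ, hΛ1, hΛ2⟩ := exists_lam hfree hπ hu1 hu2 hcov hd
  let U : Aˣ := ⟨u, star u, hu2, hu1⟩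
  let ι : CrossedProduct h →⋆ₐ[ℂ] OpX X := (crossedProductAlg h).subtype
  have hU : star (U : A) = ((U⁻¹ : Aˣ) : A) := rfl
  have hc : ∀ f, (U : A) * π f = π (powComp h (-1) f) * U := by
    intro f
    have e1 : powComp h (-1) f = f.comp (h.symm : C(X, X)) := by
      ext x
      rw [powComp_apply, zpow_neg_one]
      rfl
    rw [e1, ← hcov f, mul_assoc]
    change u * π f = u * π f * (star u * u)
    rw [hu1, mul_one]
  have h1 : ∀ j x, (ι.comp Λ) u (dvec j x) = (dvec (j + 1) x : Ell2 X) := by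
    intro j x
    change toOp (Λ u) (dvec j x) = _
    rw [hΛ2, toOp_uElt, shiftOp_dvec]
  have h2 : ∀ j x, (ι.comp Λ) (star u) (dvec j x) = (dvec (j - 1) x : Ell2 X) := by
    intro j x
    change toOp (Λ (star u)) (dvec j x) = _
    rw [map_star, hΛ2, toOp_star, toOp_uElt, star_shift_dvec]
  refine ⟨⟨π, U, ι.comp Λ, hU, hc, hd.mono fun b hb => mem_monSpan hc hU hb, fun f j x => ?_,
    fun k j x => ?_⟩⟩
  · change toOp (Λ (π f)) (dvec j x) = _
    rw [hΛ1, toOp_piHom, multOp_dvec]
  · induction k using Int.induction_on generalizing j with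
    | zero => simp
    | succ k ih =>
      rw [zpow_add_one, Units.val_mul, map_mul]
      change (ι.comp Λ) _ ((ι.comp Λ) u (dvec j x)) = _
      rw [h1, ih]
      congr 1
      ring
    | pred k ih =>
      rw [zpow_sub_one, Units.val_mul, map_mul]
      change (ι.comp Λ) _ ((ι.comp Λ) (star u) (dvec j x)) = _
      rw [h2, ih]
      congr 1
      ring

theorem inner_dvec (i j : ℤ) (x : X) :
    inner ℂ (dvec i x : Ell2 X) (dvec j x) = if i = j then 1 else 0 := by
  classical
  rw [inner_dvec_left, dvec_apply]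
  simp

theorem norm_dvec (i : ℤ) (x : X) : ‖(dvec i x : Ell2 X)‖ = 1 := by
  have h1 := inner_dvec i i x
  rw [if_pos rfl, inner_self_eq_norm_sq_to_K] at h1
  have h2 : ‖(dvec i x : Ell2 X)‖ ^ 2 = 1 := by
    apply Complex.ofReal_injective
    push_cast
    exact h1
  nlinarith [norm_nonneg (dvec i x : Ell2 X)]

theorem zpow_app (h : X ≃ₜ X) (i j : ℤ) (x : X) : (h ^ i) ((h ^ j) x) = (h ^ (i + j)) x := by
  rw [zpow_add]
  rfl

namespace Sys

variable (s : Sys h A)

/-- a monomial -/
noncomputable def mon (f : C(X, ℂ)) (k : ℤ) : A := s.π f * ((s.U ^ k : Aˣ) : A)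

/-- the image of a basis vector -/
noncomputable def vec (x : X) (n : ℤ) : A →L[ℂ] Ell2 X :=
  LinearMap.mkContinuous
    { toFun := fun c => s.Λ c (dvec n x)
      map_add' := fun c d => by rw [map_add]; rfl
      map_smul' := fun a c => by rw [map_smul]; rfl } 1 fun c => by
    refine ((s.Λ c).le_opNorm _).trans ?_
    rw [norm_dvec, mul_one, one_mul]
    exact NonUnitalStarAlgHom.norm_apply_le s.Λ c

theorem vec_apply (x : X) (n : ℤ) (c : A) : s.vec x n c = s.Λ c (dvec n x) := rfl

theorem norm_vec_le (x : X) (n : ℤ) (c : A) : ‖s.vec x n c‖ ≤ ‖c‖ := by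
  refine ((s.Λ c).le_opNorm _).trans ?_
  rw [norm_dvec, mul_one]
  exact NonUnitalStarAlgHom.norm_apply_le s.Λ c

theorem vec_mul (x : X) (n : ℤ) (c d : A) : s.vec x n (c * d) = s.Λ c (s.vec x n d) := by
  rw [vec_apply, map_mul]
  rfl

theorem vec_mon (x : X) (n : ℤ) (f : C(X, ℂ)) (k : ℤ) :
    s.vec x n (s.mon f k) = f ((h ^ (n + k)) x) • (dvec (n + k) x : Ell2 X) := by
  rw [mon, vec_mul, vec_apply, s.lU, s.lpi]

/-- the matrix coefficients -/
noncomputable def ker (x : X) (m n : ℤ) : A →L[ℂ] ℂ := (innerSL ℂ (dvec m x)).comp (s.vec x n)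

theorem ker_apply (x : X) (m n : ℤ) (c : A) :
    s.ker x m n c = inner ℂ (dvec m x : Ell2 X) (s.vec x n c) := rfl

theorem norm_ker_le (x : X) (m n : ℤ) (c : A) : ‖s.ker x m n c‖ ≤ ‖c‖ := by
  rw [ker_apply]
  refine (norm_inner_le_norm _ _).trans ?_
  rw [norm_dvec, one_mul]
  exact s.norm_vec_le x n c

theorem inner_vec (x : X) (m n : ℤ) (c d : A) :
    inner ℂ (s.vec x m c) (s.vec x n d) = s.ker x m n (star c * d) := by
  rw [ker_apply, vec_mul, map_star, ContinuousLinearMap.star_eq_adjoint,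
    ContinuousLinearMap.adjoint_inner_right]
  rfl

theorem vec_one (x : X) (n : ℤ) : s.vec x n 1 = dvec n x := by
  rw [vec_apply, map_one]
  rfl

theorem ker_star (x : X) (m n : ℤ) (c : A) : s.ker x m n (star c) = star (s.ker x n m c) := by
  have h1 := s.inner_vec x m n c 1
  rw [mul_one, vec_one] at h1
  rw [← h1, ker_apply, Complex.star_def, inner_conj_symm]

theorem ker_star_mul_self (x : X) (n : ℤ) (c : A) :
    s.ker x n n (star c * c) = ((‖s.vec x n c‖ ^ 2 : ℝ) : ℂ) := by
  rw [← inner_vec, inner_self_eq_norm_sq_to_K]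
  norm_cast

theorem ker_mon (x : X) (m n : ℤ) (f : C(X, ℂ)) (k : ℤ) :
    s.ker x m n (s.mon f k) = if m = n + k then f ((h ^ m) x) else 0 := by
  rw [ker_apply, vec_mon, inner_smul_right, inner_dvec]
  split_ifs with h1
  · rw [h1, mul_one]
  · rw [mul_zero]

theorem mon_zero (f : C(X, ℂ)) : s.mon f 0 = s.π f := by simp [mon]

theorem ker_pi (x : X) (m n : ℤ) (f : C(X, ℂ)) :
    s.ker x m n (s.π f) = if m = n then f ((h ^ m) x) else 0 := by
  rw [← mon_zero, ker_mon, add_zero]

theorem ker_one (x : X) (m n : ℤ) : s.ker x m n 1 = if m = n then 1 else 0 := by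
  rw [← map_one s.π, ker_pi]
  simp

theorem star_mon (f : C(X, ℂ)) (k : ℤ) :
    star (s.mon f k) = s.mon (powComp h k (star f)) (-k) := mon_star s.cov s.starU f k

theorem mon_mul_mon (f g : C(X, ℂ)) (k l : ℤ) :
    s.mon f k * s.mon g l = s.mon (f * powComp h (-k) g) (k + l) := mon_mul s.cov f g k l

theorem norm_U (k : ℤ) : ‖((s.U ^ k : Aˣ) : A)‖ ≤ 1 := by
  have h1 : star ((s.U ^ k : Aˣ) : A) * ((s.U ^ k : Aˣ) : A) = 1 := by
    rw [star_units_zpow s.starU, ← Units.val_mul, ← zpow_add]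
    simp
  have h2 := CStarRing.norm_star_mul_self (x := ((s.U ^ k : Aˣ) : A))
  rw [h1] at h2
  have h3 : ‖(1 : A)‖ ≤ 1 := by
    rcases subsingleton_or_nontrivial A with h4 | h4
    · rw [Subsingleton.elim (1 : A) 0, norm_zero]
      exact zero_le_one
    · exact norm_one.le
  nlinarith [norm_nonneg ((s.U ^ k : Aˣ) : A)]

theorem norm_mon_le (f : C(X, ℂ)) (k : ℤ) : ‖s.mon f k‖ ≤ ‖f‖ := by
  refine (norm_mul_le _ _).trans ?_
  have h1 := NonUnitalStarAlgHom.norm_apply_le s.π f
  have h2 := s.norm_U k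
  nlinarith [norm_nonneg (s.π f), norm_nonneg ((s.U ^ k : Aˣ) : A)]

/-- induction over the crossed product -/
theorem ind {P : A → Prop} (hc : IsClosed {c | P c}) (h0 : P 0) (hm : ∀ f k, P (s.mon f k))
    (ha : ∀ c d, P c → P d → P (c + d)) (hs : ∀ (a : ℂ) c, P c → P (a • c)) (c : A) : P c := by
  refine s.dense.induction (fun c hc => ?_) hc c
  induction hc using Submodule.span_induction with
  | mem c hc =>
    obtain ⟨f, k, rfl⟩ := hc
    exact hm f k
  | zero => exact h0
  | add c d _ _ h1 h2 => exact ha c d h1 h2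
  | smul a c _ h1 => exact hs a c h1

theorem ker_shift (x : X) (j m n : ℤ) (c : A) :
    s.ker ((h ^ j) x) m n c = s.ker x (m + j) (n + j) c := by
  refine s.ind (P := fun c => s.ker ((h ^ j) x) m n c = s.ker x (m + j) (n + j) c)
    (isClosed_eq (s.ker _ _ _).continuous (s.ker _ _ _).continuous) (by simp) (fun f k => ?_)
    (fun c d h1 h2 => by simp only [map_add, h1, h2])
    (fun a c h1 => by simp only [map_smul, h1]) c
  rw [ker_mon, ker_mon, zpow_app]
  refine if_congr ?_ rfl rfl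
  constructor <;> intro h <;> omega

theorem continuous_ker (m n : ℤ) (c : A) : Continuous fun x => s.ker x m n c := by
  refine s.ind (P := fun c => Continuous fun x => s.ker x m n c) ?_ (by simpa using continuous_const)
    (fun f k => ?_) (fun c d h1 h2 => by simp only [map_add]; exact h1.add h2)
    (fun a c h1 => by simp only [map_smul]; exact h1.const_smul a) c
  · refine isClosed_of_closure_subset fun c hc => ?_
    refine continuous_of_uniform_approx_of_continuous fun u hu => ?_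
    obtain ⟨ε, hε, hu⟩ := Metric.mem_uniformity_dist.1 hu
    obtain ⟨d, hd, hcd⟩ := Metric.mem_closure_iff.1 hc ε hε
    refine ⟨_, hd, fun x => hu ?_⟩
    rw [dist_eq_norm, ← map_sub]
    rw [dist_eq_norm] at hcd
    exact (s.norm_ker_le _ _ _ _).trans_lt hcd
  · simp only [ker_mon]
    split_ifs
    · exact f.continuous.comp (h ^ m).continuous
    · exact continuous_const

/-- elements of the span are finite sums of monomials -/
theorem exists_sum {c : A} (hc : c ∈ monSpan s.π s.U) :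
    ∃ f : ℤ →₀ C(X, ℂ), c = ∑ k ∈ f.support, s.mon (f k) k := by
  let L : (ℤ →₀ C(X, ℂ)) →ₗ[ℂ] A := Finsupp.lsum ℂ fun k =>
    { toFun := fun f => s.mon f k
      map_add' := fun f g => by simp [mon, add_mul]
      map_smul' := fun a f => by simp [mon] }
  have h1 : monSpan s.π s.U ≤ LinearMap.range L := by
    refine Submodule.span_le.2 ?_
    rintro _ ⟨f, k, rfl⟩
    exact ⟨Finsupp.single k f, by simp [L, mon]⟩
  obtain ⟨f, rfl⟩ := h1 hc
  exact ⟨f, rfl⟩

theorem ker_sum_mon (F : Finset ℤ) (f : ℤ → C(X, ℂ)) (x : X) (m n : ℤ) :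
    s.ker x m n (∑ k ∈ F, s.mon (f k) k) = if m - n ∈ F then f (m - n) ((h ^ m) x) else 0 := by
  rw [map_sum]
  simp only [ker_mon]
  have h1 : ∀ k, (m = n + k) = (m - n = k) := fun k => propext ⟨fun h => by omega, fun h => by omega⟩
  simp only [h1]
  rw [Finset.sum_ite_eq]

end Sys

end Vale.Agent.P093Z
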